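import Vale.Agent.P214.AVG.Weak
import Mathlib.LinearAlgebra.Matrix.Charpoly.Coeff

/-!
# P214, block AVG: the adjoint identity

Derivatives of determinants and inverse matrices in coordinates; for solutions of the minimal
surface system `∂_i (√g g^{ij}) = 0`; the adjoint of the linearised minimal surface operator.
-/

open Set Filter Topology MeasureTheory Metric
open scoped RealInnerProductSpace ContDiff

set_option linter.all false

namespace Vale.Agent.P214.AVG

open Vale.Agent.P214.REF (pd bs)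

variable {m n : ℕ}

noncomputable section

section pdcalc

variable {f g : REF.E m → ℝ} {x : REF.E m} (i : Fin m)

lemma pd_line (hf : DifferentiableAt ℝ f x) :
    HasDerivAt (fun t : ℝ => f (x + t • (bs i : REF.E m))) (pd i f x) 0 := by
  have hline : HasDerivAt (fun t : ℝ => x + t • (bs i : REF.E m)) (bs i) 0 := by
    simpa using ((hasDerivAt_id (0 : ℝ)).smul_const (bs i : REF.E m)).const_add x
  have hx0 : x + (0 : ℝ) • (bs i : REF.E m) = x := by simp
  have h1 : HasFDerivAt f (fderiv ℝ f x) (x + (0 : ℝ) • (bs i : REF.E m)) := by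
    rw [hx0]
    exact hf.hasFDerivAt
  exact h1.comp_hasDerivAt (0 : ℝ) hline

lemma pd_of_line (hf : DifferentiableAt ℝ f x) {c : ℝ}
    (h : HasDerivAt (fun t : ℝ => f (x + t • (bs i : REF.E m))) c 0) : pd i f x = c :=
  (pd_line i hf).unique h

lemma pd_mul' (hf : DifferentiableAt ℝ f x) (hg : DifferentiableAt ℝ g x) :
    pd i (fun x => f x * g x) x = pd i f x * g x + f x * pd i g x := by
  unfold pd
  have h1 : fderiv ℝ (fun x => f x * g x) x = f x • fderiv ℝ g x + g x • fderiv ℝ f x :=
    (hf.hasFDerivAt.mul hg.hasFDerivAt).fderiv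
  rw [h1]
  simp
  ring

lemma pd_add' (hf : DifferentiableAt ℝ f x) (hg : DifferentiableAt ℝ g x) :
    pd i (fun x => f x + g x) x = pd i f x + pd i g x := by
  unfold pd
  have h1 : fderiv ℝ (fun x => f x + g x) x = fderiv ℝ f x + fderiv ℝ g x :=
    (hf.hasFDerivAt.add hg.hasFDerivAt).fderiv
  rw [h1]
  rfl

lemma pd_sum' {ι : Type*} (s : Finset ι) {F : ι → REF.E m → ℝ}
    (hF : ∀ a ∈ s, DifferentiableAt ℝ (F a) x) :
    pd i (fun x => ∑ a ∈ s, F a x) x = ∑ a ∈ s, pd i (F a) x := by
  unfold pd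
  have h1 : fderiv ℝ (fun x => ∑ a ∈ s, F a x) x = ∑ a ∈ s, fderiv ℝ (F a) x :=
    (HasFDerivAt.fun_sum fun a ha => (hF a ha).hasFDerivAt).fderiv
  rw [h1, ContinuousLinearMap.sum_apply]

lemma pd_const' (c : ℝ) : pd i (fun _ : REF.E m => c) x = 0 := by
  unfold pd
  simp

lemma pd_const_mul' (c : ℝ) (hf : DifferentiableAt ℝ f x) :
    pd i (fun x => c * f x) x = c * pd i f x := by
  rw [pd_mul' i (differentiableAt_const c) hf, pd_const']
  ring

lemma pd_sqrt' (hf : DifferentiableAt ℝ f x) (h : f x ≠ 0) :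
    pd i (fun x => √(f x)) x = pd i f x / (2 * √(f x)) := by
  refine pd_of_line i (hf.sqrt h) ?_
  have h1 := pd_line i hf
  have hx0 : x + (0 : ℝ) • (bs i : REF.E m) = x := by simp
  have h2 := h1.sqrt (by rw [hx0]; exact h)
  rwa [hx0] at h2

/-- Jacobi's formula along a line -/
lemma hasDerivAt_det' {p : ℕ} {M : ℝ → Matrix (Fin p) (Fin p) ℝ} {M' : Matrix (Fin p) (Fin p) ℝ}
    {t : ℝ} (hM : ∀ i j, HasDerivAt (fun s => M s i j) (M' i j) t) (h : (M t).det ≠ 0) :
    HasDerivAt (fun s => (M s).det) ((M t).det * Matrix.trace ((M t)⁻¹ * M')) t := by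
  set D : (Fin p → Fin p → ℝ) → ℝ := fun X => (Matrix.of X).det with hD
  have hDc : ContDiff ℝ 1 D := contDiff_det (A := fun X : Fin p → Fin p → ℝ => Matrix.of X)
    fun i j => contDiff_apply_apply ℝ ℝ i j
  have hDd : ∀ X, HasFDerivAt D (fderiv ℝ D X) X := fun X =>
    (hDc.contDiffAt.differentiableAt (by simp)).hasFDerivAt
  have h1 : HasDerivAt (fun s => (fun i j => M s i j : Fin p → Fin p → ℝ))
      (fun i j => M' i j : Fin p → Fin p → ℝ) t :=
    hasDerivAt_pi.2 fun i => hasDerivAt_pi.2 fun j => hM i j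
  have h2 : HasDerivAt (fun s => (M s).det) (fderiv ℝ D (M t) M') t :=
    (hDd (M t)).comp_hasDerivAt t h1
  have h3 : HasDerivAt (fun r : ℝ => (M t + r • M').det) (fderiv ℝ D (M t) M') 0 := by
    have h4 : HasDerivAt (fun r : ℝ => ((fun i j => M t i j + r * M' i j) : Fin p → Fin p → ℝ))
        (fun i j => M' i j : Fin p → Fin p → ℝ) 0 := by
      refine hasDerivAt_pi.2 fun i => hasDerivAt_pi.2 fun j => ?_
      simpa using ((hasDerivAt_id (0 : ℝ)).mul_const (M' i j)).const_add (M t i j)
    have h5 : HasFDerivAt D (fderiv ℝ D (M t))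
        ((fun i j => M t i j + (0 : ℝ) * M' i j) : Fin p → Fin p → ℝ) := by
      have : ((fun i j => M t i j + (0 : ℝ) * M' i j) : Fin p → Fin p → ℝ) = M t := by
        funext i j; simp
      rw [this]; exact hDd _
    have h6 := h5.comp_hasDerivAt (0 : ℝ) h4
    exact h6
  have h4 : HasDerivAt (fun r : ℝ => (M t + r • M').det)
      ((M t).det * Matrix.trace ((M t)⁻¹ * M')) 0 := by
    have h5 : ∀ r : ℝ, (M t + r • M').det
        = (M t).det * (1 + r • ((M t)⁻¹ * M')).det := by
      intro r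
      rw [← Matrix.det_mul, mul_add, mul_one, mul_smul_comm, ← Matrix.mul_assoc,
        Matrix.mul_nonsing_inv _ (isUnit_iff_ne_zero.2 h), Matrix.one_mul]
    have h6 : (fun r : ℝ => (M t + r • M').det) = fun r =>
        (M t).det * (1 + Matrix.trace ((M t)⁻¹ * M') * r + ((Matrix.det (1 +
          (Polynomial.X : Polynomial ℝ) • ((M t)⁻¹ * M').map Polynomial.C)).divX.divX.eval r)
            * r ^ 2) := by
      funext r
      rw [h5, Matrix.det_one_add_smul]
    rw [h6]
    set q : Polynomial ℝ := (Matrix.det (1 +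
          (Polynomial.X : Polynomial ℝ) • ((M t)⁻¹ * M').map Polynomial.C)).divX.divX
    have h7 : HasDerivAt (fun r : ℝ => q.eval r * r ^ 2) 0 0 := by
      have := (q.hasDerivAt (0 : ℝ)).mul (hasDerivAt_pow 2 (0 : ℝ))
      refine this.congr_deriv ?_
      simp
    have h8 : HasDerivAt (fun r : ℝ => Matrix.trace ((M t)⁻¹ * M') * r)
        (Matrix.trace ((M t)⁻¹ * M')) 0 := by
      simpa using (hasDerivAt_id (0 : ℝ)).const_mul (Matrix.trace ((M t)⁻¹ * M'))
    have h9 := ((h8.const_add 1).add h7).const_mul (M t).det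
    simpa using h9
  rw [← h3.unique h4]
  exact h2

/-- derivative of a determinant -/
lemma pd_det {p : ℕ} {A : REF.E m → Matrix (Fin p) (Fin p) ℝ}
    (hA : ∀ k l, ContDiff ℝ 1 fun x => A x k l) (h : (A x).det ≠ 0) :
    pd i (fun x => (A x).det) x =
      (A x).det * ∑ k, ∑ l, (A x)⁻¹ k l * pd i (fun x => A x l k) x := by
  have hdet : DifferentiableAt ℝ (fun x => (A x).det) x :=
    (contDiff_det hA).contDiffAt.differentiableAt (by simp)
  refine pd_of_line i hdet ?_
  have hx0 : x + (0 : ℝ) • (bs i : REF.E m) = x := by simp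
  have h1 := hasDerivAt_det' (M := fun t : ℝ => A (x + t • (bs i : REF.E m)))
    (M' := Matrix.of fun k l => pd i (fun x => A x k l) x) (t := 0)
    (fun k l => pd_line i ((hA k l).contDiffAt.differentiableAt (by simp)))
    (by simp only [hx0]; exact h)
  simp only [hx0] at h1
  exact h1

/-- derivative of an inverse matrix -/
lemma pd_inv {p : ℕ} {A B : REF.E m → Matrix (Fin p) (Fin p) ℝ}
    (hA : ∀ k l, ContDiff ℝ 1 fun x => A x k l) (hB : ∀ k l, ContDiff ℝ 1 fun x => B x k l)
    (hAB : ∀ x, A x * B x = 1) (k l : Fin p) :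
    pd i (fun x => B x k l) x = -∑ q, ∑ r, B x k q * pd i (fun x => A x q r) x * B x r l := by
  set A' : Matrix (Fin p) (Fin p) ℝ := Matrix.of fun k l => pd i (fun x => A x k l) x with hA'
  set B' : Matrix (Fin p) (Fin p) ℝ := Matrix.of fun k l => pd i (fun x => B x k l) x with hB'
  have h1 : A' * B x + A x * B' = 0 := by
    ext k l
    have h2 : pd i (fun x => (A x * B x) k l) x = 0 := by
      have : (fun x => (A x * B x) k l) = fun _ => (1 : Matrix (Fin p) (Fin p) ℝ) k l := by
        funext x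
        rw [hAB]
      rw [this, pd_const']
    simp only [Matrix.mul_apply] at h2
    rw [pd_sum' i Finset.univ (F := fun q x => A x k q * B x q l)
      (fun q _ => ((hA k q).contDiffAt.differentiableAt (by simp)).mul
        ((hB q l).contDiffAt.differentiableAt (by simp)))] at h2
    rw [Matrix.add_apply, Matrix.mul_apply, Matrix.mul_apply, Matrix.zero_apply, ← h2,
      ← Finset.sum_add_distrib]
    refine Finset.sum_congr rfl fun q _ => ?_
    rw [pd_mul' i ((hA k q).contDiffAt.differentiableAt (by simp))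
      ((hB q l).contDiffAt.differentiableAt (by simp))]
    rfl
  have hBA : B x * A x = 1 := mul_eq_one_comm.1 (hAB x)
  have h3 : B' = -(B x * A' * B x) := by
    have h4 : B x * (A' * B x + A x * B') = 0 := by rw [h1, mul_zero]
    rw [mul_add, ← mul_assoc, ← mul_assoc, hBA, one_mul] at h4
    exact eq_neg_of_add_eq_zero_right h4
  have h5 := congrFun (congrFun h3 k) l
  rw [Matrix.neg_apply, Matrix.mul_assoc, Matrix.mul_apply] at h5
  refine h5.trans ?_
  congr 1
  refine Finset.sum_congr rfl fun q _ => ?_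
  rw [Matrix.mul_apply, Finset.mul_sum]
  refine Finset.sum_congr rfl fun r _ => ?_
  rw [← mul_assoc]
  rfl

end pdcalc

variable {w : Fin n → REF.E m → ℝ} {x : REF.E m}

/-- the area element -/
def sg (w : Fin n → REF.E m → ℝ) (x : REF.E m) : ℝ := √(gmat (dm w x)).det

lemma sg_pos (w : Fin n → REF.E m → ℝ) (x : REF.E m) : 0 < sg w x :=
  Real.sqrt_pos.2 (gmat_posDef _).det_pos

lemma sg_sq (w : Fin n → REF.E m → ℝ) (x : REF.E m) : sg w x ^ 2 = (gmat (dm w x)).det :=
  Real.sq_sqrt (gmat_posDef _).det_pos.le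

lemma contDiff_dm {k : ℕ∞} (hw : ∀ a, ContDiff ℝ (k + 1 : ℕ∞) (w a)) (a : Fin n) (i : Fin m) :
    ContDiff ℝ k fun x => dm w x a i := contDiff_pd (hw a) le_rfl i

lemma contDiff_sg {k : ℕ∞} (hw : ∀ a, ContDiff ℝ (k + 1 : ℕ∞) (w a)) : ContDiff ℝ k (sg w) := by
  unfold sg
  exact (contDiff_det (contDiff_gmat (contDiff_dm hw))).sqrt fun x => (gmat_posDef _).det_pos.ne'

/-- derivative of the metric -/
lemma pd_gmat (hw : ∀ a, ContDiff ℝ 2 (w a)) (i k l : Fin m) :
    pd i (fun x => gmat (dm w x) k l) x =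
      ∑ a, (pd i (pd k (w a)) x * pd l (w a) x + pd k (w a) x * pd i (pd l (w a)) x) := by
  have h1 : ∀ a k, ContDiff ℝ 1 (pd k (w a)) := fun a k => contDiff_pd (k := 2) (l := 1) (hw a) (by norm_num) k
  have h2 : (fun x => gmat (dm w x) k l) = fun x => (1 : Matrix (Fin m) (Fin m) ℝ) k l +
      ∑ a, pd k (w a) x * pd l (w a) x := by
    funext x
    have h3 : gmat (dm w x) k l = (1 : Matrix (Fin m) (Fin m) ℝ) k l +
        ((dm w x).transpose * dm w x) k l := rfl
    rw [h3, Matrix.mul_apply]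
    rfl
  have h3 : ∀ a, DifferentiableAt ℝ (fun x => pd k (w a) x * pd l (w a) x) x := fun a =>
    ((h1 a k).contDiffAt.differentiableAt (by simp)).mul ((h1 a l).contDiffAt.differentiableAt (by simp))
  rw [h2, pd_add' i (differentiableAt_const _) (DifferentiableAt.fun_sum fun a _ => h3 a), pd_const',
    zero_add, pd_sum' i _ (fun a _ => h3 a)]
  refine Finset.sum_congr rfl fun a _ => ?_
  rw [pd_mul' i ((h1 a k).contDiffAt.differentiableAt (by simp))
    ((h1 a l).contDiffAt.differentiableAt (by simp))]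

/-- derivative of the inverse metric -/
lemma pd_gi (hw : ∀ a, ContDiff ℝ 2 (w a)) (i k l : Fin m) :
    pd i (fun x => gi (dm w x) k l) x =
      -∑ a, ((∑ q, gi (dm w x) k q * pd i (pd q (w a)) x) * be (dm w x) a l +
        be (dm w x) a k * ∑ r, pd i (pd r (w a)) x * gi (dm w x) r l) := by
  have h0 : ∀ a i, ContDiff ℝ 1 fun x => dm w x a i := contDiff_dm (k := 1) hw
  rw [pd_inv i (contDiff_gmat h0) (contDiff_gi h0) (fun x => gmat_mul_gi (dm w x)) k l]
  congr 1
  simp only [pd_gmat hw]
  have h1 : ∀ a, ((∑ q, gi (dm w x) k q * pd i (pd q (w a)) x) * be (dm w x) a l +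
      be (dm w x) a k * ∑ r, pd i (pd r (w a)) x * gi (dm w x) r l) = ∑ q, ∑ r, gi (dm w x) k q *
      (pd i (pd q (w a)) x * pd r (w a) x + pd q (w a) x * pd i (pd r (w a)) x) *
        gi (dm w x) r l := by
    intro a
    have h2 : be (dm w x) a l = ∑ r, pd r (w a) x * gi (dm w x) r l := by
      unfold be
      rw [Matrix.mul_apply]
      rfl
    have h3 : be (dm w x) a k = ∑ q, gi (dm w x) k q * pd q (w a) x := by
      unfold be
      rw [Matrix.mul_apply]
      refine Finset.sum_congr rfl fun q _ => ?_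
      rw [gi_comm, mul_comm]
      rfl
    rw [h2, h3, Finset.sum_mul_sum, Finset.sum_mul_sum, ← Finset.sum_add_distrib]
    refine Finset.sum_congr rfl fun q _ => ?_
    rw [← Finset.sum_add_distrib]
    exact Finset.sum_congr rfl fun r _ => by ring
  simp only [h1]
  conv_rhs => rw [Finset.sum_comm]
  refine Finset.sum_congr rfl fun q _ => ?_
  conv_rhs => rw [Finset.sum_comm]
  refine Finset.sum_congr rfl fun r _ => ?_
  rw [Finset.mul_sum, Finset.sum_mul]

/-- derivative of the area element -/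
lemma pd_sg (hw : ∀ a, ContDiff ℝ 2 (w a)) (i : Fin m) :
    pd i (sg w) x = sg w x * ∑ a, ∑ p, pd i (pd p (w a)) x * be (dm w x) a p := by
  have h0 : ∀ a i, ContDiff ℝ 1 fun x => dm w x a i := contDiff_dm (k := 1) hw
  have hdet : ContDiff ℝ 1 fun x => (gmat (dm w x)).det := contDiff_det (contDiff_gmat h0)
  have hpos := (gmat_posDef (dm w x)).det_pos
  unfold sg
  rw [pd_sqrt' i (hdet.contDiffAt.differentiableAt (by simp)) hpos.ne',
    pd_det i (contDiff_gmat h0) hpos.ne']
  have h1 : ∑ k, ∑ l, (gmat (dm w x))⁻¹ k l * pd i (fun x => gmat (dm w x) l k) x =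
      2 * ∑ a, ∑ p, pd i (pd p (w a)) x * be (dm w x) a p := by
    have h2 : ∀ a p, be (dm w x) a p = ∑ k, pd k (w a) x * gi (dm w x) k p := by
      intro a p
      unfold be
      rw [Matrix.mul_apply]
      rfl
    have h3 : ∀ k l, (gmat (dm w x))⁻¹ k l * pd i (fun x => gmat (dm w x) l k) x =
        ∑ a, (pd i (pd l (w a)) x * (pd k (w a) x * gi (dm w x) k l) +
          pd i (pd k (w a)) x * (pd l (w a) x * gi (dm w x) l k)) := by
      intro k l
      rw [pd_gmat hw, Finset.mul_sum]
      refine Finset.sum_congr rfl fun a _ => ?_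
      have h4 : (gmat (dm w x))⁻¹ k l = gi (dm w x) k l := rfl
      rw [h4, gi_comm (dm w x) l k]
      ring
    simp only [h3, h2]
    have h5 : ∑ k, ∑ l, ∑ a, (pd i (pd l (w a)) x * (pd k (w a) x * gi (dm w x) k l) +
        pd i (pd k (w a)) x * (pd l (w a) x * gi (dm w x) l k)) =
        ∑ k, ∑ l, ∑ a, pd i (pd l (w a)) x * (pd k (w a) x * gi (dm w x) k l) +
        ∑ k, ∑ l, ∑ a, pd i (pd k (w a)) x * (pd l (w a) x * gi (dm w x) l k) := by
      simp only [Finset.sum_add_distrib]
    have h6 : ∑ k, ∑ l, ∑ a, pd i (pd l (w a)) x * (pd k (w a) x * gi (dm w x) k l) =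
        ∑ k, ∑ l, ∑ a, pd i (pd k (w a)) x * (pd l (w a) x * gi (dm w x) l k) := Finset.sum_comm
    have h7 : ∑ k, ∑ l, ∑ a, pd i (pd k (w a)) x * (pd l (w a) x * gi (dm w x) l k) =
        ∑ a, ∑ p, pd i (pd p (w a)) x * ∑ k, pd k (w a) x * gi (dm w x) k p := by
      simp only [Finset.mul_sum]
      conv_rhs => rw [Finset.sum_comm]
      refine Finset.sum_congr rfl fun k _ => ?_
      conv_rhs => rw [Finset.sum_comm]
    rw [h5, h6, h7]
    ring
  rw [h1]
  have h2 : √(gmat (dm w x)).det ≠ 0 := (Real.sqrt_pos.2 hpos).ne'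
  have h3 : (gmat (dm w x)).det = √(gmat (dm w x)).det * √(gmat (dm w x)).det :=
    (Real.mul_self_sqrt hpos.le).symm
  rw [div_eq_iff (by positivity)]
  conv_lhs => rw [h3]
  ring

/-- **for minimal graphs the horizontal coordinates are harmonic** -/
lemma div_sg_gi (hw : ∀ a, ContDiff ℝ 2 (w a))
    (hmse : ∀ a, ∑ i, ∑ j, gi (dm w x) i j * pd i (pd j (w a)) x = 0) (j : Fin m) :
    ∑ i, pd i (fun x => sg w x * gi (dm w x) i j) x = 0 := by
  have h0 : ∀ a i, ContDiff ℝ 1 fun x => dm w x a i := contDiff_dm (k := 1) hw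
  have hs : DifferentiableAt ℝ (sg w) x :=
    (contDiff_sg (k := 1) hw).contDiffAt.differentiableAt (by simp)
  have hg : ∀ i, DifferentiableAt ℝ (fun x => gi (dm w x) i j) x := fun i =>
    (contDiff_gi h0 i j).contDiffAt.differentiableAt (by simp)
  have h1 : ∀ i, pd i (fun x => sg w x * gi (dm w x) i j) x =
      sg w x * (∑ a, ((∑ p, pd i (pd p (w a)) x * be (dm w x) a p) * gi (dm w x) i j -
        (∑ q, gi (dm w x) i q * pd i (pd q (w a)) x) * be (dm w x) a j -
        be (dm w x) a i * ∑ r, pd i (pd r (w a)) x * gi (dm w x) r j)) := by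
    intro i
    rw [pd_mul' i hs (hg i), pd_sg hw, pd_gi hw]
    simp only [Finset.sum_sub_distrib, Finset.sum_add_distrib, ← Finset.sum_mul]
    ring
  simp only [h1, ← Finset.mul_sum]
  rw [Finset.sum_comm]
  have h2 : ∀ a, ∑ i, ((∑ p, pd i (pd p (w a)) x * be (dm w x) a p) * gi (dm w x) i j -
        (∑ q, gi (dm w x) i q * pd i (pd q (w a)) x) * be (dm w x) a j -
        be (dm w x) a i * ∑ r, pd i (pd r (w a)) x * gi (dm w x) r j) = 0 := by
    intro a
    rw [Finset.sum_sub_distrib, Finset.sum_sub_distrib, ← Finset.sum_mul (s := Finset.univ)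
      (f := fun i => ∑ q, gi (dm w x) i q * pd i (pd q (w a)) x), hmse a, zero_mul, sub_zero]
    have h3 : ∑ i, (∑ p, pd i (pd p (w a)) x * be (dm w x) a p) * gi (dm w x) i j =
        ∑ i, be (dm w x) a i * ∑ r, pd i (pd r (w a)) x * gi (dm w x) r j := by
      simp only [Finset.sum_mul, Finset.mul_sum]
      rw [Finset.sum_comm]
      refine Finset.sum_congr rfl fun i _ => Finset.sum_congr rfl fun p _ => ?_
      rw [pd_comm (hw a) p i]
      ring
    rw [h3, sub_self]
  rw [Finset.sum_eq_zero fun a _ => h2 a, mul_zero]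

/-! ### the polynomial form of the linearisation -/

section poly

open MvPolynomial

lemma gm_eq (w : Fin n → REF.E m → ℝ) (x : REF.E m) : REF.gm w x = gmat (dm w x) := by
  ext i j
  have h3 : gmat (dm w x) i j = (1 : Matrix (Fin m) (Fin m) ℝ) i j +
      ((dm w x).transpose * dm w x) i j := rfl
  rw [h3, Matrix.mul_apply]
  rfl

lemma mse_of_Mop {a : Fin n} (h : REF.Mop w a x = 0) :
    ∑ i, ∑ j, gi (dm w x) i j * pd i (pd j (w a)) x = 0 := by
  have h1 := (REF.Mop_eq_zero_iff w a x).1 h
  rw [gm_eq] at h1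
  exact h1

/-- evaluation at the slopes -/
def evD (w : Fin n → REF.E m → ℝ) (x : REF.E m) : MvPolynomial (Fin m × Fin n) ℝ →+* ℝ :=
  eval fun s : Fin m × Fin n => pd s.1 (w s.2) x

lemma evD_gp (w : Fin n → REF.E m → ℝ) (x : REF.E m) (i j : Fin m) :
    evD w x (REF.gp m n i j) = gmat (dm w x) i j := by
  rw [← gm_eq, ← REF.eval_gp]
  rfl

lemma evD_adj (w : Fin n → REF.E m → ℝ) (x : REF.E m) (i j : Fin m) :
    evD w x ((REF.gp m n).adjugate i j) = (gmat (dm w x)).det * gi (dm w x) i j := by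
  have h2 := RingHom.map_adjugate (evD w x) (REF.gp m n)
  have h3 : (evD w x).mapMatrix (REF.gp m n) = gmat (dm w x) := by
    ext i j
    exact evD_gp w x i j
  rw [h3] at h2
  have h4 := congrFun (congrFun h2 i) j
  have h5 : (gmat (dm w x)).adjugate i j = (gmat (dm w x)).det * gi (dm w x) i j := by
    have hd : (gmat (dm w x)).det ≠ 0 := (gmat_posDef _).det_pos.ne'
    unfold gi
    rw [Matrix.inv_def, Matrix.smul_apply, smul_eq_mul, Ring.inverse_eq_inv', ← mul_assoc,
      mul_inv_cancel₀ hd, one_mul]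
  rw [← h5]
  exact h4

/-- derivative of the metric polynomial -/
lemma evD_pderiv_gp (w : Fin n → REF.E m → ℝ) (x : REF.E m) (k : Fin m) (c : Fin n) (p q : Fin m) :
    evD w x (pderiv (k, c) (REF.gp m n p q)) =
      (1 : Matrix (Fin m) (Fin m) ℝ) p k * dm w x c q + dm w x c p * (1 : Matrix (Fin m) (Fin m) ℝ) q k := by
  have h1 : REF.gp m n p q = (1 : Matrix (Fin m) (Fin m) (MvPolynomial (Fin m × Fin n) ℝ)) p q +
      ∑ b, X (p, b) * X (q, b) := rfl
  have h2 : pderiv (k, c) ((1 : Matrix (Fin m) (Fin m) (MvPolynomial (Fin m × Fin n) ℝ)) p q) = 0 := by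
    by_cases h : p = q
    · subst h
      simp
    · simp [Matrix.one_apply_ne h]
  rw [h1, map_add, h2, zero_add, map_sum, map_sum]
  have h3 : ∀ b, evD w x (pderiv (k, c) (X (p, b) * X (q, b) : MvPolynomial (Fin m × Fin n) ℝ)) =
      (if b = c then ((1 : Matrix (Fin m) (Fin m) ℝ) p k * dm w x c q +
        dm w x c p * (1 : Matrix (Fin m) (Fin m) ℝ) q k) else 0) := by
    intro b
    rw [Derivation.leibniz, pderiv_X, pderiv_X, map_add, smul_eq_mul, smul_eq_mul, map_mul, map_mul]
    have h4 : evD w x (X (p, b)) = dm w x b p := by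
      unfold evD dm
      rw [eval_X]
    have h5 : evD w x (X (q, b)) = dm w x b q := by
      unfold evD dm
      rw [eval_X]
    rw [h4, h5]
    have h6 : ∀ p, evD w x (Pi.single (M := fun _ => MvPolynomial (Fin m × Fin n) ℝ) (k, c) 1 (p, b)) =
        if b = c then (1 : Matrix (Fin m) (Fin m) ℝ) p k else 0 := by
      intro p
      by_cases hb : b = c
      · subst hb
        by_cases hp : p = k
        · subst hp
          simp
        · have : ((p, b) : Fin m × Fin n) ≠ (k, b) := fun h => hp (by simpa using (congrArg Prod.fst h))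
          rw [Pi.single_eq_of_ne this, map_zero, if_pos rfl, Matrix.one_apply_ne hp]
      · have : ((p, b) : Fin m × Fin n) ≠ (k, c) := fun h => hb (by simpa using (congrArg Prod.snd h))
        rw [Pi.single_eq_of_ne this, map_zero, if_neg hb]
    rw [h6, h6]
    by_cases hb : b = c
    · subst hb
      simp
      ring
    · simp [hb]
  simp only [h3, Finset.sum_ite_eq', Finset.mem_univ, if_true]

/-- **the first order coefficients of the linearised operator on an exact graph** -/
lemma bco_poly (hw : ∀ a, ContDiff ℝ 2 (w a)) (a c : Fin n) (k : Fin m)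
    (hmse : ∑ i, ∑ j, gi (dm w x) i j * pd i (pd j (w a)) x = 0) :
    -∑ i, ∑ j, evD w x (pderiv (k, c) (REF.cp m n i j)) * pd i (pd j (w a)) x =
      -2 * (gmat (dm w x)).det * ∑ i, ∑ j, be (dm w x) c i * gi (dm w x) k j *
        pd i (pd j (w a)) x := by
  set δ := (pderiv (k, c) : Derivation ℝ (MvPolynomial (Fin m × Fin n) ℝ) _) with hδ
  set G := gmat (dm w x) with hG
  set A' : Matrix (Fin m) (Fin m) ℝ := Matrix.of fun i j => evD w x (δ ((REF.gp m n).adjugate i j))
    with hA'
  set G' : Matrix (Fin m) (Fin m) ℝ := Matrix.of fun i j => evD w x (δ (REF.gp m n i j)) with hG'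
  set d' : ℝ := evD w x (δ (REF.gp m n).det) with hd'
  have h1 : G' * (G.det • gi (dm w x)) + G * A' = d' • (1 : Matrix (Fin m) (Fin m) ℝ) := by
    ext i j
    have h2 := congrFun (congrFun (Matrix.mul_adjugate (REF.gp m n)) i) j
    rw [Matrix.mul_apply] at h2
    have h3 := congrArg (fun p => evD w x (δ p)) h2
    simp only [map_sum] at h3
    have h4 : evD w x (δ (((REF.gp m n).det • (1 : Matrix (Fin m) (Fin m) _)) i j)) =
        (d' • (1 : Matrix (Fin m) (Fin m) ℝ)) i j := by
      rw [Matrix.smul_apply, Matrix.smul_apply, smul_eq_mul, smul_eq_mul]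
      by_cases hij : i = j
      · subst hij
        simp
        rfl
      · simp [Matrix.one_apply_ne hij]
    rw [h4] at h3
    rw [← h3, Matrix.add_apply, Matrix.mul_apply, Matrix.mul_apply, ← Finset.sum_add_distrib]
    refine Finset.sum_congr rfl fun q _ => ?_
    rw [Derivation.leibniz, smul_eq_mul, smul_eq_mul, map_add, map_mul, map_mul, evD_gp, evD_adj,
      Matrix.smul_apply, smul_eq_mul]
    simp only [hG', hA', Matrix.of_apply]
    ring
  have hgG : gi (dm w x) * G = 1 := gi_mul_gmat _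
  have h2 : A' = d' • gi (dm w x) - G.det • (gi (dm w x) * G' * gi (dm w x)) := by
    have h3 : gi (dm w x) * (G' * (G.det • gi (dm w x)) + G * A') =
        gi (dm w x) * (d' • (1 : Matrix (Fin m) (Fin m) ℝ)) := by rw [h1]
    rw [mul_add, ← mul_assoc _ G, hgG, one_mul, mul_smul_comm, mul_smul_comm, mul_smul_comm, mul_one,
      ← mul_assoc] at h3
    rw [← h3]
    abel
  have h3 : ∀ i j, (gi (dm w x) * G' * gi (dm w x)) i j =
      gi (dm w x) i k * be (dm w x) c j + be (dm w x) c i * gi (dm w x) k j := by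
    intro i j
    have h4 : ∀ q, (gi (dm w x) * G') i q =
        gi (dm w x) i k * dm w x c q + be (dm w x) c i * (1 : Matrix (Fin m) (Fin m) ℝ) q k := by
      intro q
      rw [Matrix.mul_apply]
      have h5 : ∀ p, gi (dm w x) i p * G' p q = gi (dm w x) i p * ((1 : Matrix (Fin m) (Fin m) ℝ) p k *
          dm w x c q) + dm w x c p * gi (dm w x) p i * (1 : Matrix (Fin m) (Fin m) ℝ) q k := by
        intro p
        simp only [hG', Matrix.of_apply, hδ]
        rw [evD_pderiv_gp, gi_comm (dm w x) p i]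
        ring
      simp only [h5, Finset.sum_add_distrib, ← Finset.sum_mul]
      have h6 : ∑ p, dm w x c p * gi (dm w x) p i = be (dm w x) c i := by
        unfold be
        rw [Matrix.mul_apply]
      rw [h6]
      congr 1
      simp [Matrix.one_apply]
    rw [Matrix.mul_apply]
    simp only [h4, add_mul, Finset.sum_add_distrib]
    have h7 : ∑ q, gi (dm w x) i k * dm w x c q * gi (dm w x) q j =
        gi (dm w x) i k * be (dm w x) c j := by
      unfold be
      rw [Matrix.mul_apply, Finset.mul_sum]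
      exact Finset.sum_congr rfl fun q _ => by ring
    rw [h7]
    congr 1
    simp [Matrix.one_apply]
  have h4 : ∀ i j, evD w x (δ (REF.cp m n i j)) = -A' i j := by
    intro i j
    have h5 : REF.cp m n i j = (1 : Matrix (Fin m) (Fin m) (MvPolynomial (Fin m × Fin n) ℝ)) i j -
      (REF.gp m n).adjugate i j := rfl
    have h6 : δ ((1 : Matrix (Fin m) (Fin m) (MvPolynomial (Fin m × Fin n) ℝ)) i j) = 0 := by
      by_cases h : i = j
      · subst h
        simp
      · simp [Matrix.one_apply_ne h]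
    rw [h5, map_sub, h6, zero_sub, map_neg]
    rfl
  simp only [h4, neg_mul, Finset.sum_neg_distrib, neg_neg]
  rw [h2]
  simp only [Matrix.sub_apply, Matrix.smul_apply, smul_eq_mul, h3, sub_mul, Finset.sum_sub_distrib]
  have h8 : ∑ i, ∑ j, d' * gi (dm w x) i j * pd i (pd j (w a)) x = 0 := by
    have : ∀ i j, d' * gi (dm w x) i j * pd i (pd j (w a)) x =
        d' * (gi (dm w x) i j * pd i (pd j (w a)) x) := fun i j => by ring
    simp only [this, ← Finset.mul_sum]
    rw [hmse, mul_zero]
  have h9 : ∑ i, ∑ j, G.det * (gi (dm w x) i k * be (dm w x) c j + be (dm w x) c i * gi (dm w x) k j) *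
      pd i (pd j (w a)) x = 2 * G.det * ∑ i, ∑ j, be (dm w x) c i * gi (dm w x) k j *
        pd i (pd j (w a)) x := by
    have e1 : ∀ i j, G.det * (gi (dm w x) i k * be (dm w x) c j + be (dm w x) c i *
        gi (dm w x) k j) * pd i (pd j (w a)) x =
        G.det * (be (dm w x) c j * gi (dm w x) k i * pd j (pd i (w a)) x) +
        G.det * (be (dm w x) c i * gi (dm w x) k j * pd i (pd j (w a)) x) := by
      intro i j
      rw [gi_comm (dm w x) i k, pd_comm (hw a) j i]
      ring
    simp only [e1, Finset.sum_add_distrib, ← Finset.mul_sum]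
    rw [Finset.sum_comm (f := fun i j => be (dm w x) c j * gi (dm w x) k i * pd j (pd i (w a)) x)]
    ring
  rw [h8, h9]
  ring

end poly

end

end Vale.Agent.P214.AVG
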