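import Vale.Agent.P214.FV.Planes
import Vale.Agent.P214.REF.Minimal

/-!
# P214, block AVG: linear algebra of a plane near a graph plane

`b` is an orthonormal basis of `E` indexed by `Fin m ⊕ Fin n`; `d` is an `n × m` matrix of slopes.
`tv b d i` and `nv b d a` are the tangent and normal vectors of the graph plane with slopes `d`,
`G d = 1 + dᵀ d` its metric.  For an orthogonal projection `R` of rank `m` the horizontal block of
`R` equals that of the graph plane up to an explicit linear term and a quadratic error.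
-/

open Set Filter Topology MeasureTheory Metric
open scoped RealInnerProductSpace

set_option linter.all false

namespace Vale.Agent.P214.AVG

open Vale.Agent.P214.FV

variable {E : Type*} [NormedAddCommGroup E] [InnerProductSpace ℝ E] [FiniteDimensional ℝ E]
variable {m n : ℕ}

noncomputable section

/-- horizontal basis vectors -/
def ev (b : OrthonormalBasis (Fin m ⊕ Fin n) ℝ E) (i : Fin m) : E := b (Sum.inl i)

/-- vertical basis vectors -/
def cv (b : OrthonormalBasis (Fin m ⊕ Fin n) ℝ E) (a : Fin n) : E := b (Sum.inr a)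

/-- tangent vectors of the graph plane -/
def tv (b : OrthonormalBasis (Fin m ⊕ Fin n) ℝ E) (d : Matrix (Fin n) (Fin m) ℝ) (i : Fin m) : E :=
  ev b i + ∑ a, d a i • cv b a

/-- normal vectors of the graph plane -/
def nv (b : OrthonormalBasis (Fin m ⊕ Fin n) ℝ E) (d : Matrix (Fin n) (Fin m) ℝ) (a : Fin n) : E :=
  cv b a - ∑ i, d a i • ev b i

/-- metric of the graph plane -/
def gmat (d : Matrix (Fin n) (Fin m) ℝ) : Matrix (Fin m) (Fin m) ℝ := 1 + d.transpose * d

/-- inverse metric -/
def gi (d : Matrix (Fin n) (Fin m) ℝ) : Matrix (Fin m) (Fin m) ℝ := (gmat d)⁻¹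

/-- the matrix `d g⁻¹` -/
def be (d : Matrix (Fin n) (Fin m) ℝ) : Matrix (Fin n) (Fin m) ℝ := d * gi d

variable (b : OrthonormalBasis (Fin m ⊕ Fin n) ℝ E) (d : Matrix (Fin n) (Fin m) ℝ)

lemma inner_ev_ev (i j : Fin m) : ⟪ev b i, ev b j⟫ = (1 : Matrix (Fin m) (Fin m) ℝ) i j := by
  unfold ev
  rw [orthonormal_iff_ite.1 b.orthonormal, Matrix.one_apply]
  simp

lemma inner_cv_cv (i j : Fin n) : ⟪cv b i, cv b j⟫ = (1 : Matrix (Fin n) (Fin n) ℝ) i j := by
  unfold cv
  rw [orthonormal_iff_ite.1 b.orthonormal, Matrix.one_apply]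
  simp

lemma inner_ev_cv (i : Fin m) (a : Fin n) : ⟪ev b i, cv b a⟫ = 0 := by
  unfold ev cv
  rw [orthonormal_iff_ite.1 b.orthonormal]
  simp

lemma inner_cv_ev (i : Fin m) (a : Fin n) : ⟪cv b a, ev b i⟫ = 0 := by
  rw [real_inner_comm, inner_ev_cv]

lemma norm_ev (i : Fin m) : ‖ev b i‖ = 1 := b.orthonormal.1 _

lemma norm_cv (a : Fin n) : ‖cv b a‖ = 1 := b.orthonormal.1 _

lemma inner_ev_tv (i j : Fin m) : ⟪ev b i, tv b d j⟫ = (1 : Matrix (Fin m) (Fin m) ℝ) i j := by
  unfold tv
  rw [inner_add_right, inner_ev_ev, inner_sum]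
  simp [inner_smul_right, inner_ev_cv]

lemma inner_cv_tv (a : Fin n) (j : Fin m) : ⟪cv b a, tv b d j⟫ = d a j := by
  unfold tv
  rw [inner_add_right, inner_cv_ev, inner_sum]
  simp [inner_smul_right, inner_cv_cv, Matrix.one_apply]

lemma inner_tv_tv (i j : Fin m) : ⟪tv b d i, tv b d j⟫ = gmat d i j := by
  conv_lhs => lhs; unfold tv
  rw [inner_add_left, inner_ev_tv, sum_inner]
  simp only [real_inner_smul_left, inner_cv_tv]
  unfold gmat
  simp [Matrix.add_apply, Matrix.mul_apply]

lemma inner_tv_nv (i : Fin m) (a : Fin n) : ⟪tv b d i, nv b d a⟫ = 0 := by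
  unfold nv
  rw [inner_sub_right, inner_sum, real_inner_comm, inner_cv_tv]
  simp only [inner_smul_right]
  have h : ∀ j, ⟪tv b d i, ev b j⟫ = (1 : Matrix (Fin m) (Fin m) ℝ) j i := fun j => by
    rw [real_inner_comm, inner_ev_tv]
  simp [h, Matrix.one_apply]

lemma gmat_posDef : (gmat d).PosDef := by
  unfold gmat
  refine Matrix.PosDef.add_posSemidef Matrix.PosDef.one ?_
  have := Matrix.posSemidef_conjTranspose_mul_self d
  rwa [Matrix.conjTranspose_eq_transpose_of_trivial] at this

lemma gmat_isUnit : IsUnit (gmat d).det := (gmat_posDef d).det_pos.ne'.isUnit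

lemma gmat_mul_gi : gmat d * gi d = 1 := Matrix.mul_nonsing_inv _ (gmat_isUnit d)

lemma gi_mul_gmat : gi d * gmat d = 1 := Matrix.nonsing_inv_mul _ (gmat_isUnit d)

lemma gmat_symm : (gmat d).transpose = gmat d := by
  unfold gmat
  simp [Matrix.transpose_add, Matrix.transpose_mul]

lemma gi_symm : (gi d).transpose = gi d := by
  unfold gi
  rw [Matrix.transpose_nonsing_inv, gmat_symm]

lemma gi_comm (i j : Fin m) : gi d i j = gi d j i := by
  conv_lhs => rw [← gi_symm]
  rfl

/-- the graph plane -/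
def Sg : Submodule ℝ E := Submodule.span ℝ (range (tv b d))

lemma tv_mem (i : Fin m) : tv b d i ∈ Sg b d := Submodule.subset_span ⟨i, rfl⟩

lemma linearIndependent_tv : LinearIndependent ℝ (tv b d) := by
  rw [Fintype.linearIndependent_iff]
  intro g hg i
  have h1 : ⟪ev b i, ∑ j, g j • tv b d j⟫ = 0 := by rw [hg, inner_zero_right]
  rw [inner_sum] at h1
  simpa [inner_smul_right, inner_ev_tv, Matrix.one_apply] using h1

lemma finrank_Sg : Module.finrank ℝ (Sg b d) = m := by
  unfold Sg
  rw [finrank_span_eq_card (linearIndependent_tv b d)]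
  simp

lemma orth_of_forall {v : E} (h : ∀ i, ⟪tv b d i, v⟫ = 0) : v ∈ (Sg b d)ᗮ := by
  rw [Submodule.mem_orthogonal]
  intro u hu
  unfold Sg at hu
  induction hu using Submodule.span_induction with
  | mem x hx =>
    obtain ⟨i, rfl⟩ := hx
    exact h i
  | zero => exact inner_zero_left _
  | add x y _ _ hx hy => rw [inner_add_left, hx, hy, add_zero]
  | smul a x _ hx => rw [real_inner_smul_left, hx, mul_zero]

lemma nv_mem (a : Fin n) : nv b d a ∈ (Sg b d)ᗮ := orth_of_forall b d fun i => inner_tv_nv b d i a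

/-- projection of a horizontal basis vector onto the graph plane -/
lemma proj_ev (j : Fin m) : (Sg b d).starProjection (ev b j) = ∑ i, gi d i j • tv b d i := by
  refine Submodule.eq_starProjection_of_mem_orthogonal ?_ ?_
  · exact Submodule.sum_mem _ fun i _ => Submodule.smul_mem _ _ (tv_mem b d i)
  · refine orth_of_forall b d fun k => ?_
    rw [inner_sub_right, inner_sum, real_inner_comm, inner_ev_tv]
    simp only [inner_smul_right, inner_tv_tv]
    have h1 := congrFun (congrFun (gmat_mul_gi d) k) j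
    rw [Matrix.mul_apply] at h1
    have h2 : ∑ i, gi d i j * gmat d k i = (1 : Matrix (Fin m) (Fin m) ℝ) k j := by
      rw [← h1]
      exact Finset.sum_congr rfl fun i _ => mul_comm _ _
    rw [h2]
    simp [Matrix.one_apply, eq_comm]

lemma proj_ev' (j : Fin m) : (Sg b d).starProjection (ev b j) =
    ∑ i, gi d i j • ev b i + ∑ a, be d a j • cv b a := by
  rw [proj_ev]
  unfold tv
  simp only [smul_add, Finset.sum_add_distrib]
  congr 1
  simp only [Finset.smul_sum, smul_smul]
  rw [Finset.sum_comm]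
  refine Finset.sum_congr rfl fun a _ => ?_
  rw [← Finset.sum_smul]
  congr 1
  unfold be
  rw [Matrix.mul_apply]
  exact Finset.sum_congr rfl fun i _ => mul_comm _ _

lemma inner_ev_proj (i j : Fin m) : ⟪ev b i, (Sg b d).starProjection (ev b j)⟫ = gi d i j := by
  rw [proj_ev', inner_add_right, inner_sum, inner_sum]
  simp [inner_smul_right, inner_ev_ev, inner_ev_cv, Matrix.one_apply]

lemma inner_cv_proj (a : Fin n) (j : Fin m) : ⟪cv b a, (Sg b d).starProjection (ev b j)⟫ = be d a j := by
  rw [proj_ev', inner_add_right, inner_sum, inner_sum]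
  simp [inner_smul_right, inner_cv_ev, inner_cv_cv, Matrix.one_apply]

/-- complement of a horizontal basis vector -/
lemma co_ev (j : Fin m) : co (Sg b d) (ev b j) = -∑ a, be d a j • nv b d a := by
  rw [co_apply, proj_ev']
  unfold nv
  simp only [smul_sub, Finset.sum_sub_distrib]
  have h1 : ∑ a, be d a j • ∑ i, d a i • ev b i = ev b j - ∑ i, gi d i j • ev b i := by
    have h2 : ∀ i, ∑ a, be d a j * d a i = (1 : Matrix (Fin m) (Fin m) ℝ) i j - gi d i j := by
      intro i
      have h3 := congrFun (congrFun (gmat_mul_gi d) i) j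
      unfold gmat at h3
      rw [add_mul, one_mul, Matrix.add_apply, Matrix.mul_assoc, Matrix.mul_apply] at h3
      rw [← h3]
      unfold be
      simp only [Matrix.transpose_apply]
      rw [add_sub_cancel_left]
      exact Finset.sum_congr rfl fun a _ => mul_comm _ _
    simp only [Finset.smul_sum, smul_smul]
    rw [Finset.sum_comm]
    simp only [← Finset.sum_smul, h2, sub_smul, Finset.sum_sub_distrib]
    congr 1
    simp [Matrix.one_apply]
  rw [h1]
  abel

include b in
lemma abs_gi_le (i j : Fin m) : |gi d i j| ≤ 1 := by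
  rw [← inner_ev_proj b d]
  calc |⟪ev b i, (Sg b d).starProjection (ev b j)⟫| ≤ ‖ev b i‖ * ‖(Sg b d).starProjection (ev b j)‖ :=
        abs_real_inner_le_norm _ _
    _ ≤ 1 * 1 := by
        rw [norm_ev]
        gcongr
        exact (norm_star_le _ _).trans (norm_ev b j).le
    _ = 1 := one_mul 1

include b in
lemma abs_be_le (a : Fin n) (j : Fin m) : |be d a j| ≤ 1 := by
  rw [← inner_cv_proj b d]
  calc |⟪cv b a, (Sg b d).starProjection (ev b j)⟫| ≤ ‖cv b a‖ * ‖(Sg b d).starProjection (ev b j)‖ :=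
        abs_real_inner_le_norm _ _
    _ ≤ 1 * 1 := by
        rw [norm_cv]
        gcongr
        exact (norm_star_le _ _).trans (norm_ev b j).le
    _ = 1 := one_mul 1

include b in
lemma abs_be_le' {lam : ℝ} (hd : ∀ a i, |d a i| ≤ lam) (a : Fin n) (j : Fin m) :
    |be d a j| ≤ m * lam := by
  unfold be
  rw [Matrix.mul_apply]
  refine (Finset.abs_sum_le_sum_abs _ _).trans ?_
  calc ∑ i, |d a i * gi d i j| ≤ ∑ _i : Fin m, lam * 1 := by
        refine Finset.sum_le_sum fun i _ => ?_
        rw [abs_mul]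
        have h0 : 0 ≤ lam := (abs_nonneg _).trans (hd a i)
        exact mul_le_mul (hd a i) (abs_gi_le b d i j) (abs_nonneg _) h0
    _ = m * lam := by simp

/-- the energy density of `R` relative to the graph plane -/
def ew (R : E →L[ℝ] E) : ℝ := ∑ a, ‖R (nv b d a)‖ ^ 2

lemma ew_nonneg (R : E →L[ℝ] E) : 0 ≤ ew b d R := Finset.sum_nonneg fun _ _ => by positivity

lemma norm_nv_le_ew (R : E →L[ℝ] E) (a : Fin n) : ‖R (nv b d a)‖ ≤ √(ew b d R) := by
  refine Real.le_sqrt_of_sq_le ?_
  exact Finset.single_le_sum (f := fun a => ‖R (nv b d a)‖ ^ 2) (fun _ _ => by positivity)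
    (Finset.mem_univ a)

lemma sum_norm_nv_sq_le (R : E →L[ℝ] E) : (∑ a, ‖R (nv b d a)‖) ^ 2 ≤ n * ew b d R := by
  have := Finset.sum_mul_sq_le_sq_mul_sq (Finset.univ : Finset (Fin n)) (fun _ => (1 : ℝ))
    (fun a => ‖R (nv b d a)‖)
  simpa [ew] using this

/-- the complement of a vector expressed by the normal vectors -/
lemma co_eq_sum (v : E) : co (Sg b d) v = ∑ a, ⟪cv b a, co (Sg b d) v⟫ • nv b d a := by
  -- the difference lies in `Sg` and in `Sgᗮ`
  set u : E := co (Sg b d) v with hu
  set z : E := u - ∑ a, ⟪cv b a, u⟫ • nv b d a with hz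
  have huperp : u ∈ (Sg b d)ᗮ := by
    rw [hu, co_eq]
    exact Submodule.starProjection_apply_mem _ _
  have hzperp : z ∈ (Sg b d)ᗮ := by
    refine Submodule.sub_mem _ huperp ?_
    exact Submodule.sum_mem _ fun a _ => Submodule.smul_mem _ _ (nv_mem b d a)
  have hcn : ∀ a a', ⟪cv b a, nv b d a'⟫ = (1 : Matrix (Fin n) (Fin n) ℝ) a a' := by
    intro a a'
    unfold nv
    rw [inner_sub_right, inner_cv_cv, inner_sum]
    simp [inner_smul_right, inner_cv_ev]
  have hc : ∀ a, ⟪cv b a, z⟫ = 0 := by
    intro a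
    rw [hz, inner_sub_right, inner_sum]
    simp [inner_smul_right, hcn, Matrix.one_apply]
  have he : ∀ i, ⟪ev b i, z⟫ = 0 := by
    intro i
    have h1 : ⟪tv b d i, z⟫ = 0 := (Submodule.mem_orthogonal _ _).1 hzperp _ (tv_mem b d i)
    unfold tv at h1
    rw [inner_add_left, sum_inner] at h1
    simpa [real_inner_smul_left, hc] using h1
  have hz0 : z = 0 := by
    rw [← b.sum_repr' z, Fintype.sum_sum_type]
    have h1 : ∀ i, ⟪b (Sum.inl i), z⟫ = 0 := he
    have h2 : ∀ a, ⟪b (Sum.inr a), z⟫ = 0 := hc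
    simp [h1, h2]
  rw [hz, sub_eq_zero] at hz0
  exact hz0

/-- the tilt relative to the graph plane is bounded by the energy density -/
lemma tilt_Sg_le (S : Submodule ℝ E) :
    tilt (Sg b d) S.starProjection ≤ n * ew b d S.starProjection := by
  rw [← hs_comp_co]
  have h1 : hs (S.starProjection.comp (co (Sg b d))) ≤
      ∑ k, (∑ a, ⟪cv b a, co (Sg b d) (stdOrthonormalBasis ℝ E k)⟫ ^ 2) * ew b d S.starProjection := by
    unfold hs
    refine Finset.sum_le_sum fun k _ => ?_
    set x := stdOrthonormalBasis ℝ E k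
    have h2 : (S.starProjection.comp (co (Sg b d))) x =
        ∑ a, ⟪cv b a, co (Sg b d) x⟫ • S.starProjection (nv b d a) := by
      rw [ContinuousLinearMap.comp_apply]
      conv_lhs => rw [co_eq_sum b d x]
      rw [map_sum]
      simp only [map_smul]
    rw [h2]
    have h3 : ‖∑ a, ⟪cv b a, co (Sg b d) x⟫ • S.starProjection (nv b d a)‖ ≤
        ∑ a, |⟪cv b a, co (Sg b d) x⟫| * ‖S.starProjection (nv b d a)‖ := by
      refine (norm_sum_le _ _).trans (Finset.sum_le_sum fun a _ => ?_)
      rw [norm_smul, Real.norm_eq_abs]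
    have h4 := Finset.sum_mul_sq_le_sq_mul_sq (Finset.univ : Finset (Fin n))
      (fun a => |⟪cv b a, co (Sg b d) x⟫|) (fun a => ‖S.starProjection (nv b d a)‖)
    simp only [sq_abs] at h4
    calc _ ≤ (∑ a, |⟪cv b a, co (Sg b d) x⟫| * ‖S.starProjection (nv b d a)‖) ^ 2 := by gcongr
      _ ≤ _ := h4
  refine h1.trans ?_
  rw [← Finset.sum_mul]
  refine mul_le_mul_of_nonneg_right ?_ (ew_nonneg b d _)
  rw [Finset.sum_comm]
  have h5 : ∀ a, ∑ k, ⟪cv b a, co (Sg b d) (stdOrthonormalBasis ℝ E k)⟫ ^ 2 ≤ 1 := by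
    intro a
    have h6 : ∀ k, ⟪cv b a, co (Sg b d) (stdOrthonormalBasis ℝ E k)⟫ =
        ⟪stdOrthonormalBasis ℝ E k, co (Sg b d) (cv b a)⟫ := fun k => by
      rw [← inner_co, real_inner_comm]
    simp only [h6]
    have h7 := (stdOrthonormalBasis ℝ E).sum_sq_norm_inner_right (co (Sg b d) (cv b a))
    simp only [Real.norm_eq_abs, sq_abs] at h7
    rw [h7]
    have h8 := norm_co_le (Sg b d) (cv b a)
    rw [norm_cv] at h8
    have h9 := norm_nonneg (co (Sg b d) (cv b a))
    nlinarith
  calc ∑ a, ∑ k, ⟪cv b a, co (Sg b d) (stdOrthonormalBasis ℝ E k)⟫ ^ 2 ≤ ∑ _a : Fin n, (1 : ℝ) :=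
        Finset.sum_le_sum fun a _ => h5 a
    _ = n := by simp

/-- splitting of the bilinear form of a projection with respect to another plane -/
lemma inner_split (S S' : Submodule ℝ E) (x y : E) :
    ⟪x, S.starProjection y⟫ = ⟪x, S'.starProjection y⟫ + ⟪co S' x, S.starProjection y⟫ +
      ⟪co S' y, S.starProjection x⟫ - ⟪S.starProjection (co S' x), S.starProjection (co S' y)⟫ -
      ⟪co S (S'.starProjection x), co S (S'.starProjection y)⟫ := by
  have hx : x = S'.starProjection x + co S' x := (star_add_co S' x).symm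
  have hy : y = S'.starProjection y + co S' y := (star_add_co S' y).symm
  set a := S'.starProjection x with ha
  set p := S'.starProjection y with hp
  set c := co S' x with hc
  set q := co S' y with hq
  have e1 : ⟪x, p⟫ = ⟪a, p⟫ := by
    rw [ha, hp, inner_star, star_self]
  have e2 : ⟪S.starProjection c, S.starProjection q⟫ = ⟪c, S.starProjection q⟫ := by
    rw [inner_star, star_self]
  have e3 : ⟪co S a, co S p⟫ = ⟪a, p⟫ - ⟪a, S.starProjection p⟫ := by
    rw [inner_co, co_self, co_apply, inner_sub_right]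
  have e4 : ⟪q, S.starProjection x⟫ = ⟪x, S.starProjection q⟫ := by
    rw [← inner_star, real_inner_comm]
  rw [e1, e2, e3, e4]
  rw [hx, hy]
  simp only [map_add, inner_add_left, inner_add_right]
  ring

/-- **Linearisation of the horizontal block.** -/
lemma lin_block {S : Submodule ℝ E} (hS : Module.finrank ℝ S = m) (i j : Fin m) :
    |⟪ev b i, S.starProjection (ev b j)⟫ - gi d i j +
      ∑ a, be d a i * ⟪ev b j, S.starProjection (nv b d a)⟫ +
      ∑ a, be d a j * ⟪ev b i, S.starProjection (nv b d a)⟫| ≤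
      2 * n * ew b d S.starProjection := by
  have h1 := inner_split S (Sg b d) (ev b i) (ev b j)
  rw [inner_ev_proj] at h1
  have h2 : ∀ i j, ⟪co (Sg b d) (ev b i), S.starProjection (ev b j)⟫ =
      -∑ a, be d a i * ⟪ev b j, S.starProjection (nv b d a)⟫ := by
    intro i j
    rw [co_ev, inner_neg_left, sum_inner]
    congr 1
    refine Finset.sum_congr rfl fun a _ => ?_
    rw [real_inner_smul_left, ← inner_star, real_inner_comm]
  rw [h2 i j, h2 j i] at h1
  have h3 : ∀ i, ‖S.starProjection (co (Sg b d) (ev b i))‖ ≤ ∑ a, ‖S.starProjection (nv b d a)‖ := by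
    intro i
    rw [co_ev, map_neg, norm_neg, map_sum]
    refine (norm_sum_le _ _).trans (Finset.sum_le_sum fun a _ => ?_)
    rw [map_smul, norm_smul, Real.norm_eq_abs]
    calc |be d a i| * ‖S.starProjection (nv b d a)‖ ≤ 1 * ‖S.starProjection (nv b d a)‖ := by
          gcongr
          exact abs_be_le b d a i
      _ = _ := one_mul _
  have h4 : |⟪S.starProjection (co (Sg b d) (ev b i)), S.starProjection (co (Sg b d) (ev b j))⟫| ≤
      n * ew b d S.starProjection := by
    refine (abs_real_inner_le_norm _ _).trans ?_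
    calc _ ≤ (∑ a, ‖S.starProjection (nv b d a)‖) * ∑ a, ‖S.starProjection (nv b d a)‖ := by
          gcongr
          · exact h3 i
          · exact h3 j
      _ = (∑ a, ‖S.starProjection (nv b d a)‖) ^ 2 := (sq _).symm
      _ ≤ _ := sum_norm_nv_sq_le b d _
  have h5 : |⟪co S ((Sg b d).starProjection (ev b i)), co S ((Sg b d).starProjection (ev b j))⟫| ≤
      n * ew b d S.starProjection := by
    refine (abs_real_inner_le_norm _ _).trans ?_
    have h6 : ∀ i, ‖co S ((Sg b d).starProjection (ev b i))‖ ≤ √(n * ew b d S.starProjection) := by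
      intro i
      refine Real.le_sqrt_of_sq_le ?_
      have h7 := inner_defect_le S (Sg b d) (by rw [hS, finrank_Sg]) (ev b i)
      rw [inner_defect] at h7
      have h8 : ‖(Sg b d).starProjection (ev b i)‖ ^ 2 ≤ 1 := by
        have h9 := norm_star_le (Sg b d) (ev b i)
        rw [norm_ev] at h9
        have := norm_nonneg ((Sg b d).starProjection (ev b i))
        nlinarith
      have h10 := tilt_nonneg S (Sg b d)
      calc _ ≤ _ := h7
        _ ≤ tilt (Sg b d) S.starProjection * 1 := by gcongr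
        _ ≤ _ := by rw [mul_one]; exact tilt_Sg_le b d S
    calc _ ≤ √(n * ew b d S.starProjection) * √(n * ew b d S.starProjection) := by
          gcongr
          · exact h6 i
          · exact h6 j
      _ = _ := Real.mul_self_sqrt (mul_nonneg (Nat.cast_nonneg n) (ew_nonneg b d _))
  have h11 : ⟪ev b i, S.starProjection (ev b j)⟫ - gi d i j +
      ∑ a, be d a i * ⟪ev b j, S.starProjection (nv b d a)⟫ +
      ∑ a, be d a j * ⟪ev b i, S.starProjection (nv b d a)⟫ =
      -(⟪S.starProjection (co (Sg b d) (ev b i)), S.starProjection (co (Sg b d) (ev b j))⟫ +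
        ⟪co S ((Sg b d).starProjection (ev b i)), co S ((Sg b d).starProjection (ev b j))⟫) := by
    rw [h1]
    ring
  rw [h11, abs_neg]
  refine (abs_add_le _ _).trans ?_
  linarith

/-- crude bound for the horizontal block -/
lemma block_sub_le {S : Submodule ℝ E} (hS : Module.finrank ℝ S = m) {lam : ℝ}
    (hd : ∀ a i, |d a i| ≤ lam) (i j : Fin m) :
    |⟪ev b i, S.starProjection (ev b j)⟫ - gi d i j| ≤
      2 * n * (m * lam * √(ew b d S.starProjection) + ew b d S.starProjection) := by
  have h1 := lin_block b d hS i j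
  have h2 : ∀ i j, |∑ a, be d a i * ⟪ev b j, S.starProjection (nv b d a)⟫| ≤
      n * (m * lam * √(ew b d S.starProjection)) := by
    intro i j
    refine (Finset.abs_sum_le_sum_abs _ _).trans ?_
    calc ∑ a, |be d a i * ⟪ev b j, S.starProjection (nv b d a)⟫|
        ≤ ∑ _a : Fin n, m * lam * √(ew b d S.starProjection) := by
          refine Finset.sum_le_sum fun a _ => ?_
          rw [abs_mul]
          have h3 := abs_be_le' b d hd a i
          have h4 : |⟪ev b j, S.starProjection (nv b d a)⟫| ≤ √(ew b d S.starProjection) := by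
            refine (abs_real_inner_le_norm _ _).trans ?_
            rw [norm_ev, one_mul]
            exact norm_nv_le_ew b d _ a
          exact mul_le_mul h3 h4 (abs_nonneg _) ((abs_nonneg _).trans h3)
      _ = _ := by simp
  have h5 := h2 i j
  have h6 := h2 j i
  have h7 := abs_le.1 h1
  have h8 := abs_le.1 h5
  have h9 := abs_le.1 h6
  rw [abs_le]
  constructor <;> nlinarith [h7.1, h7.2, h8.1, h8.2, h9.1, h9.2]

end

end Vale.Agent.P214.AVG
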