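import Vale.Agent.P214.AVG.Ident
import Mathlib.LinearAlgebra.Matrix.AbsoluteValue

/-!
# P214, block AVG: bounds of the coefficient fields
-/

open Set Filter Topology MeasureTheory Metric
open scoped RealInnerProductSpace ContDiff

set_option linter.all false

namespace Vale.Agent.P214.AVG

open Vale.Agent.P214.REF (pd bs)

variable {m n : ℕ}

noncomputable section

variable {w : Fin n → REF.E m → ℝ} {x : REF.E m}

/-- the standard basis used for the bounds of the coefficients -/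
def stdB (m n : ℕ) : OrthonormalBasis (Fin m ⊕ Fin n) ℝ (EuclideanSpace ℝ (Fin m ⊕ Fin n)) :=
  EuclideanSpace.basisFun _ ℝ

lemma abs_gi_le0 (d : Matrix (Fin n) (Fin m) ℝ) (i j : Fin m) : |gi d i j| ≤ 1 :=
  abs_gi_le (stdB m n) d i j

lemma abs_be_le0 (d : Matrix (Fin n) (Fin m) ℝ) (a : Fin n) (j : Fin m) : |be d a j| ≤ 1 :=
  abs_be_le (stdB m n) d a j

lemma abs_sum_le_card {ι : Type*} [Fintype ι] {F : ι → ℝ} {C : ℝ} (h : ∀ i, |F i| ≤ C) :
    |∑ i, F i| ≤ Fintype.card ι * C := by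
  refine (Finset.abs_sum_le_sum_abs _ _).trans ?_
  refine (Finset.sum_le_sum fun i _ => h i).trans ?_
  simp

lemma abs_mul_le {a b A B : ℝ} (ha : |a| ≤ A) (hb : |b| ≤ B) : |a * b| ≤ A * B := by
  rw [abs_mul]
  exact mul_le_mul ha hb (abs_nonneg _) ((abs_nonneg _).trans ha)

/-- bound of the derivative of the inverse metric -/
lemma abs_pd_gi_le (hw : ∀ a, ContDiff ℝ 2 (w a)) (h2 : ∀ a i j, |pd i (pd j (w a)) x| ≤ 1)
    (k i j : Fin m) : |pd k (fun x => gi (dm w x) i j) x| ≤ 2 * n * m := by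
  rw [pd_gi hw, abs_neg]
  have h : ∀ a, |(∑ q, gi (dm w x) i q * pd k (pd q (w a)) x) * be (dm w x) a j +
      be (dm w x) a i * ∑ r, pd k (pd r (w a)) x * gi (dm w x) r j| ≤ 2 * m := by
    intro a
    have e1 : |∑ q, gi (dm w x) i q * pd k (pd q (w a)) x| ≤ m * (1 * 1) := by
      simpa using abs_sum_le_card (C := 1 * 1) fun q => abs_mul_le (abs_gi_le0 (dm w x) i q) (h2 a k q)
    have e2 : |∑ r, pd k (pd r (w a)) x * gi (dm w x) r j| ≤ m * (1 * 1) := by
      simpa using abs_sum_le_card (C := 1 * 1) fun r => abs_mul_le (h2 a k r) (abs_gi_le0 (dm w x) r j)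
    have e3 := abs_mul_le e1 (abs_be_le0 (dm w x) a j)
    have e4 := abs_mul_le (abs_be_le0 (dm w x) a i) e2
    refine (abs_add_le _ _).trans ?_
    linarith
  have := abs_sum_le_card h
  simp only [Fintype.card_fin] at this
  linarith

/-- the derivative of `Dw g⁻¹` -/
lemma pd_be (hw : ∀ a, ContDiff ℝ 2 (w a)) (k : Fin m) (a : Fin n) (i : Fin m) :
    pd k (fun x => be (dm w x) a i) x = ∑ j, (pd k (pd j (w a)) x * gi (dm w x) j i +
      pd j (w a) x * pd k (fun x => gi (dm w x) j i) x) := by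
  have h0 : ∀ a i, ContDiff ℝ 1 fun x => dm w x a i := contDiff_dm (k := 1) hw
  have h1 : (fun x => be (dm w x) a i) = fun x => ∑ j, pd j (w a) x * gi (dm w x) j i := by
    funext x
    unfold be
    rw [Matrix.mul_apply]
    rfl
  have e1 : ∀ j, DifferentiableAt ℝ (pd j (w a)) x := fun j =>
    (h0 a j).contDiffAt.differentiableAt (by simp)
  have e2 : ∀ j, DifferentiableAt ℝ (fun x => gi (dm w x) j i) x := fun j =>
    (contDiff_gi h0 j i).contDiffAt.differentiableAt (by simp)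
  have e3 : ∀ j, DifferentiableAt ℝ (fun x => pd j (w a) x * gi (dm w x) j i) x := fun j =>
    (e1 j).mul (e2 j)
  rw [h1, pd_sum' k _ (fun j _ => e3 j)]
  exact Finset.sum_congr rfl fun j _ => pd_mul' k (e1 j) (e2 j)

lemma abs_pd_be_le (hw : ∀ a, ContDiff ℝ 2 (w a)) (h1 : ∀ a i, |pd i (w a) x| ≤ 1)
    (h2 : ∀ a i j, |pd i (pd j (w a)) x| ≤ 1) (k : Fin m) (a : Fin n) (i : Fin m) :
    |pd k (fun x => be (dm w x) a i) x| ≤ m * (1 + 2 * n * m) := by
  rw [pd_be hw]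
  have h : ∀ j, |pd k (pd j (w a)) x * gi (dm w x) j i +
      pd j (w a) x * pd k (fun x => gi (dm w x) j i) x| ≤ 1 + 2 * n * m := by
    intro j
    have e1 := abs_mul_le (h2 a k j) (abs_gi_le0 (dm w x) j i)
    have e2 := abs_mul_le (h1 a j) (abs_pd_gi_le hw h2 k j i)
    refine (abs_add_le _ _).trans ?_
    linarith
  simpa using abs_sum_le_card h

/-- bound of the derivative of the auxiliary coefficient field -/
lemma abs_pd_Zc_le (hw : ∀ a, ContDiff ℝ 3 (w a)) (h1 : ∀ a i, |pd i (w a) x| ≤ 1)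
    (h2 : ∀ a i j, |pd i (pd j (w a)) x| ≤ 1) (h3 : ∀ a i j k, |pd i (pd j (pd k (w a))) x| ≤ 1)
    {ψ : Fin n → REF.E m → ℝ} (hψ : ∀ a, ContDiff ℝ 1 (ψ a)) {M : ℝ} (hM0 : ∀ a, |ψ a x| ≤ M)
    (hM1 : ∀ a k, |pd k (ψ a) x| ≤ M) (c : Fin n) (j k : Fin m) :
    |pd k (Zc w ψ c j) x| ≤ n * (m * (2 + m * (1 + 2 * n * m))) * M := by
  have hw2 : ∀ a, ContDiff ℝ 2 (w a) := fun a => (hw a).of_le (by norm_num)
  have s1 : ∀ a i, ContDiff ℝ 2 (pd i (w a)) := fun a i =>
    contDiff_pd (k := 3) (l := 2) (hw a) (by norm_num) i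
  have s2 : ∀ a i, ContDiff ℝ 1 (pd i (pd j (w a))) := fun a i =>
    contDiff_pd (k := 2) (l := 1) (s1 a j) (by norm_num) i
  have s3 : ∀ a i, ContDiff ℝ 1 fun x => dm w x a i := fun a i => (s1 a i).of_le (by norm_num)
  have dd : ∀ {f : REF.E m → ℝ}, ContDiff ℝ 1 f → DifferentiableAt ℝ f x := fun hf =>
    hf.contDiffAt.differentiableAt (by simp)
  have e0 : ∀ a i, DifferentiableAt ℝ (fun x => ψ a x * pd i (pd j (w a)) x) x := fun a i =>
    (dd (hψ a)).mul (dd (s2 a i))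
  have e1 : ∀ a i, DifferentiableAt ℝ (fun x => ψ a x * pd i (pd j (w a)) x * be (dm w x) c i) x :=
    fun a i => (e0 a i).mul (dd (contDiff_be s3 c i))
  have h : pd k (Zc w ψ c j) x = ∑ a, ∑ i, ((pd k (ψ a) x * pd i (pd j (w a)) x +
      ψ a x * pd k (pd i (pd j (w a))) x) * be (dm w x) c i +
      ψ a x * pd i (pd j (w a)) x * pd k (fun x => be (dm w x) c i) x) := by
    unfold Zc
    rw [pd_sum' k _ (fun a _ => DifferentiableAt.fun_sum fun i _ => e1 a i)]
    refine Finset.sum_congr rfl fun a _ => ?_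
    rw [pd_sum' k _ (fun i _ => e1 a i)]
    refine Finset.sum_congr rfl fun i _ => ?_
    rw [pd_mul' k (e0 a i) (dd (contDiff_be s3 c i)), pd_mul' k (dd (hψ a)) (dd (s2 a i))]
  rw [h]
  have hb : ∀ a i, |(pd k (ψ a) x * pd i (pd j (w a)) x +
      ψ a x * pd k (pd i (pd j (w a))) x) * be (dm w x) c i +
      ψ a x * pd i (pd j (w a)) x * pd k (fun x => be (dm w x) c i) x| ≤
      (2 + m * (1 + 2 * n * m)) * M := by
    intro a i
    have f1 := abs_mul_le (hM1 a k) (h2 a i j)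
    have f2 := abs_mul_le (hM0 a) (h3 a k i j)
    have f3 : |pd k (ψ a) x * pd i (pd j (w a)) x + ψ a x * pd k (pd i (pd j (w a))) x| ≤ 2 * M :=
      (abs_add_le _ _).trans (by linarith)
    have f4 := abs_mul_le f3 (abs_be_le0 (dm w x) c i)
    have f5 := abs_mul_le (abs_mul_le (hM0 a) (h2 a i j)) (abs_pd_be_le hw2 h1 h2 k c i)
    refine (abs_add_le _ _).trans ?_
    linarith
  have hb2 : ∀ a, |∑ i, ((pd k (ψ a) x * pd i (pd j (w a)) x +
      ψ a x * pd k (pd i (pd j (w a))) x) * be (dm w x) c i +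
      ψ a x * pd i (pd j (w a)) x * pd k (fun x => be (dm w x) c i) x)| ≤
      m * ((2 + m * (1 + 2 * n * m)) * M) := fun a => by
    simpa using abs_sum_le_card (hb a)
  have := abs_sum_le_card hb2
  simp only [Fintype.card_fin] at this
  linarith

/-- bound of the area element -/
def S0 (m n : ℕ) : ℝ := m.factorial * (1 + n) ^ m

lemma one_le_S0 (m n : ℕ) : 1 ≤ S0 m n := by
  unfold S0
  have h1 : (1 : ℝ) ≤ m.factorial := by exact_mod_cast Nat.succ_le_of_lt m.factorial_pos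
  have h2 : (1 : ℝ) ≤ (1 + n) ^ m := one_le_pow₀ (by linarith [Nat.cast_nonneg (α := ℝ) n])
  nlinarith

lemma sg_le (h1 : ∀ a i, |pd i (w a) x| ≤ 1) : sg w x ≤ S0 m n := by
  have hdet : |(gmat (dm w x)).det| ≤ S0 m n := by
    have h2 : ∀ i j, |gmat (dm w x) i j| ≤ 1 + n := by
      intro i j
      have h3 : gmat (dm w x) i j = (1 : Matrix (Fin m) (Fin m) ℝ) i j +
          ∑ a, pd i (w a) x * pd j (w a) x := by
        have h3 : gmat (dm w x) i j = (1 : Matrix (Fin m) (Fin m) ℝ) i j +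
            ((dm w x).transpose * dm w x) i j := rfl
        rw [h3, Matrix.mul_apply]
        rfl
      rw [h3]
      have h4 : |(1 : Matrix (Fin m) (Fin m) ℝ) i j| ≤ 1 := by
        rw [Matrix.one_apply]
        split_ifs <;> simp
      have h5 : |∑ a, pd i (w a) x * pd j (w a) x| ≤ n * (1 * 1) := by
        simpa using abs_sum_le_card (C := 1 * 1) fun a => abs_mul_le (h1 a i) (h1 a j)
      refine (abs_add_le _ _).trans ?_
      linarith
    have h3 := Matrix.det_le (A := gmat (dm w x)) (abv := AbsoluteValue.abs) (x := 1 + (n : ℝ)) h2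
    simpa [S0] using h3
  have h2 := one_le_S0 m n
  have h3 := (abs_le.1 hdet).2
  unfold sg
  rw [Real.sqrt_le_left (by linarith)]
  nlinarith

/-- the logarithmic derivative of the area element -/
def Gam (w : Fin n → REF.E m → ℝ) (i : Fin m) (x : REF.E m) : ℝ :=
  ∑ a, ∑ p, pd i (pd p (w a)) x * be (dm w x) a p

lemma abs_Gam_le (h2 : ∀ a i j, |pd i (pd j (w a)) x| ≤ 1) (i : Fin m) : |Gam w i x| ≤ n * m := by
  unfold Gam
  have h : ∀ a, |∑ p, pd i (pd p (w a)) x * be (dm w x) a p| ≤ m * (1 * 1) := fun a => by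
    simpa using abs_sum_le_card (C := 1 * 1) fun p => abs_mul_le (h2 a i p) (abs_be_le0 (dm w x) a p)
  have := abs_sum_le_card h
  simp only [Fintype.card_fin] at this
  linarith

lemma abs_pd_Gam_le (hw : ∀ a, ContDiff ℝ 3 (w a)) (h1 : ∀ a i, |pd i (w a) x| ≤ 1)
    (h2 : ∀ a i j, |pd i (pd j (w a)) x| ≤ 1) (h3 : ∀ a i j k, |pd i (pd j (pd k (w a))) x| ≤ 1)
    (i j : Fin m) : |pd j (Gam w i) x| ≤ n * (m * (1 + m * (1 + 2 * n * m))) := by
  have hw2 : ∀ a, ContDiff ℝ 2 (w a) := fun a => (hw a).of_le (by norm_num)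
  have s1 : ∀ a i, ContDiff ℝ 2 (pd i (w a)) := fun a i =>
    contDiff_pd (k := 3) (l := 2) (hw a) (by norm_num) i
  have s2 : ∀ a i j, ContDiff ℝ 1 (pd i (pd j (w a))) := fun a i j =>
    contDiff_pd (k := 2) (l := 1) (s1 a j) (by norm_num) i
  have s3 : ∀ a i, ContDiff ℝ 1 fun x => dm w x a i := fun a i => (s1 a i).of_le (by norm_num)
  have dd : ∀ {f : REF.E m → ℝ}, ContDiff ℝ 1 f → DifferentiableAt ℝ f x := fun hf =>
    hf.contDiffAt.differentiableAt (by simp)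
  have e1 : ∀ a p, DifferentiableAt ℝ (fun x => pd i (pd p (w a)) x * be (dm w x) a p) x :=
    fun a p => (dd (s2 a i p)).mul (dd (contDiff_be s3 a p))
  have h : pd j (Gam w i) x = ∑ a, ∑ p, (pd j (pd i (pd p (w a))) x * be (dm w x) a p +
      pd i (pd p (w a)) x * pd j (fun x => be (dm w x) a p) x) := by
    unfold Gam
    rw [pd_sum' j _ (fun a _ => DifferentiableAt.fun_sum fun p _ => e1 a p)]
    refine Finset.sum_congr rfl fun a _ => ?_
    rw [pd_sum' j _ (fun p _ => e1 a p)]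
    refine Finset.sum_congr rfl fun p _ => ?_
    rw [pd_mul' j (dd (s2 a i p)) (dd (contDiff_be s3 a p))]
  rw [h]
  have hb : ∀ a p, |pd j (pd i (pd p (w a))) x * be (dm w x) a p +
      pd i (pd p (w a)) x * pd j (fun x => be (dm w x) a p) x| ≤ 1 + m * (1 + 2 * n * m) := by
    intro a p
    have f1 := abs_mul_le (h3 a j i p) (abs_be_le0 (dm w x) a p)
    have f2 := abs_mul_le (h2 a i p) (abs_pd_be_le hw2 h1 h2 j a p)
    refine (abs_add_le _ _).trans ?_
    linarith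
  have hb2 : ∀ a, |∑ p, (pd j (pd i (pd p (w a))) x * be (dm w x) a p +
      pd i (pd p (w a)) x * pd j (fun x => be (dm w x) a p) x)| ≤
      m * (1 + m * (1 + 2 * n * m)) := fun a => by
    simpa using abs_sum_le_card (hb a)
  simpa using abs_sum_le_card hb2

lemma pd_sg_eq (hw : ∀ a, ContDiff ℝ 2 (w a)) (i : Fin m) :
    pd i (sg w) = fun x => sg w x * Gam w i x := by
  funext x
  exact pd_sg hw i

/-- the constant in the bounds of the area element -/
def S1 (m n : ℕ) : ℝ :=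
  S0 m n * (1 + n * m + (n * m) * (n * m) + n * (m * (1 + m * (1 + 2 * n * m))))

lemma S0_le_S1 (m n : ℕ) : S0 m n ≤ S1 m n := by
  unfold S1
  have h1 := one_le_S0 m n
  have h2 : (0 : ℝ) ≤ n * m + (n * m) * (n * m) + n * (m * (1 + m * (1 + 2 * n * m))) := by positivity
  nlinarith

lemma abs_sg_le (h1 : ∀ a i, |pd i (w a) x| ≤ 1) : |sg w x| ≤ S0 m n := by
  rw [abs_of_pos (sg_pos w x)]
  exact sg_le h1

lemma abs_pd_sg_le (hw : ∀ a, ContDiff ℝ 2 (w a)) (h1 : ∀ a i, |pd i (w a) x| ≤ 1)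
    (h2 : ∀ a i j, |pd i (pd j (w a)) x| ≤ 1) (i : Fin m) : |pd i (sg w) x| ≤ S0 m n * (n * m) := by
  rw [pd_sg_eq hw]
  exact abs_mul_le (abs_sg_le h1) (abs_Gam_le h2 i)

lemma abs_pd_pd_sg_le (hw : ∀ a, ContDiff ℝ 3 (w a)) (h1 : ∀ a i, |pd i (w a) x| ≤ 1)
    (h2 : ∀ a i j, |pd i (pd j (w a)) x| ≤ 1) (h3 : ∀ a i j k, |pd i (pd j (pd k (w a))) x| ≤ 1)
    (i j : Fin m) : |pd j (pd i (sg w)) x| ≤
      S0 m n * (n * m) * (n * m) + S0 m n * (n * (m * (1 + m * (1 + 2 * n * m)))) := by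
  have hw2 : ∀ a, ContDiff ℝ 2 (w a) := fun a => (hw a).of_le (by norm_num)
  have s1 : ∀ a i, ContDiff ℝ 2 (pd i (w a)) := fun a i =>
    contDiff_pd (k := 3) (l := 2) (hw a) (by norm_num) i
  have s2 : ∀ a i j, ContDiff ℝ 1 (pd i (pd j (w a))) := fun a i j =>
    contDiff_pd (k := 2) (l := 1) (s1 a j) (by norm_num) i
  have s3 : ∀ a i, ContDiff ℝ 1 fun x => dm w x a i := fun a i => (s1 a i).of_le (by norm_num)
  have hG : ContDiff ℝ 1 (Gam w i) := by
    unfold Gam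
    exact ContDiff.sum fun a _ => ContDiff.sum fun p _ => (s2 a i p).mul (contDiff_be s3 a p)
  have e1 : DifferentiableAt ℝ (sg w) x :=
    (contDiff_sg (k := 1) hw2).contDiffAt.differentiableAt (by simp)
  rw [pd_sg_eq hw2, pd_mul' j e1 (hG.contDiffAt.differentiableAt (by simp))]
  refine (abs_add_le _ _).trans (add_le_add ?_ ?_)
  · exact abs_mul_le (abs_pd_sg_le hw2 h1 h2 j) (abs_Gam_le h2 i)
  · exact abs_mul_le (abs_sg_le h1) (abs_pd_Gam_le hw h1 h2 h3 i j)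

/-- bounds of `√g φ` -/
lemma sg_mul_bounds (hw : ∀ a, ContDiff ℝ 3 (w a)) (h1 : ∀ a i, |pd i (w a) x| ≤ 1)
    (h2 : ∀ a i j, |pd i (pd j (w a)) x| ≤ 1) (h3 : ∀ a i j k, |pd i (pd j (pd k (w a))) x| ≤ 1)
    {φ : REF.E m → ℝ} (hφ : ContDiff ℝ 2 φ) {M : ℝ} (hM0 : |φ x| ≤ M) (hM1 : ∀ k, |pd k φ x| ≤ M)
    (hM2 : ∀ j k, |pd j (pd k φ) x| ≤ M) :
    |sg w x * φ x| ≤ 4 * S1 m n * M ∧ (∀ k, |pd k (fun x => sg w x * φ x) x| ≤ 4 * S1 m n * M) ∧
      ∀ j k, |pd j (pd k fun x => sg w x * φ x) x| ≤ 4 * S1 m n * M := by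
  have hM : 0 ≤ M := (abs_nonneg _).trans hM0
  have hw2 : ∀ a, ContDiff ℝ 2 (w a) := fun a => (hw a).of_le (by norm_num)
  have sS : ContDiff ℝ 2 (sg w) := contDiff_sg (k := 2) hw
  have sp : ∀ k, ContDiff ℝ 1 (pd k (sg w)) := fun k =>
    contDiff_pd (k := 2) (l := 1) sS (by norm_num) k
  have fp : ∀ k, ContDiff ℝ 1 (pd k φ) := fun k =>
    contDiff_pd (k := 2) (l := 1) hφ (by norm_num) k
  have dd : ∀ {f : REF.E m → ℝ}, ContDiff ℝ 1 f → ∀ x, DifferentiableAt ℝ f x := fun hf x =>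
    hf.contDiffAt.differentiableAt (by simp)
  have b0 := abs_sg_le h1
  have b1 := abs_pd_sg_le hw2 h1 h2
  have b2 := abs_pd_pd_sg_le hw h1 h2 h3
  have hS0 : S0 m n ≤ S1 m n := S0_le_S1 m n
  have h00 := one_le_S0 m n
  have hS1 : S0 m n * (n * m) ≤ S1 m n := by
    unfold S1
    have h2 : (0 : ℝ) ≤ 1 + (n * m) * (n * m) + n * (m * (1 + m * (1 + 2 * n * m))) := by positivity
    nlinarith
  have hS2 : S0 m n * (n * m) * (n * m) + S0 m n * (n * (m * (1 + m * (1 + 2 * n * m)))) ≤ S1 m n := by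
    unfold S1
    have h2 : (0 : ℝ) ≤ 1 + n * m := by positivity
    nlinarith
  have c0 : |sg w x| ≤ S1 m n := b0.trans hS0
  have c1 : ∀ i, |pd i (sg w) x| ≤ S1 m n := fun i => (b1 i).trans hS1
  have c2 : ∀ i j, |pd j (pd i (sg w)) x| ≤ S1 m n := fun i j => (b2 i j).trans hS2
  have hp : 0 ≤ S1 m n * M := mul_nonneg (by linarith) hM
  have k1 : ∀ k, pd k (fun x => sg w x * φ x) = fun x => pd k (sg w) x * φ x + sg w x * pd k φ x := by
    intro k
    funext x
    exact pd_mul' k (dd (sS.of_le (by norm_num)) x) (dd (hφ.of_le (by norm_num)) x)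
  refine ⟨(abs_mul_le c0 hM0).trans (by linarith), fun k => ?_, fun j k => ?_⟩
  · rw [k1]
    have f1 := abs_mul_le (c1 k) hM0
    have f2 := abs_mul_le c0 (hM1 k)
    refine (abs_add_le _ _).trans ?_
    linarith
  · have e1 : DifferentiableAt ℝ (fun x => pd k (sg w) x * φ x) x :=
      (dd (sp k) x).mul (dd (hφ.of_le (by norm_num)) x)
    have e2 : DifferentiableAt ℝ (fun x => sg w x * pd k φ x) x :=
      (dd (sS.of_le (by norm_num)) x).mul (dd (fp k) x)
    rw [k1, pd_add' j e1 e2, pd_mul' j (dd (sp k) x) (dd (hφ.of_le (by norm_num)) x),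
      pd_mul' j (dd (sS.of_le (by norm_num)) x) (dd (fp k) x)]
    have f1 := abs_mul_le (c2 k j) hM0
    have f2 := abs_mul_le (c1 k) (hM1 j)
    have f3 := abs_mul_le (c1 j) (hM1 k)
    have f4 := abs_mul_le c0 (hM2 j k)
    refine (abs_add_le _ _).trans ((add_le_add (abs_add_le _ _) (abs_add_le _ _)).trans ?_)
    linarith

end

end Vale.Agent.P214.AVG
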