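import Vale.Agent.P214.AVG.Alg
import Vale.Agent.P214.FV.Second

/-!
# P214, block AVG: base coordinates

`xc b : E →L ℝ^m` are the base coordinates, `w a : ℝ^m → ℝ` (`a : Fin n`) the graph functions and
`va b w a` the heights relative to the graph.
-/

open Set Filter Topology MeasureTheory Metric
open scoped RealInnerProductSpace ContDiff

set_option linter.all false

namespace Vale.Agent.P214.AVG

open Vale.Agent.P214.FV
open Vale.Agent.P214.REF (pd bs)

variable {E : Type*} [NormedAddCommGroup E] [InnerProductSpace ℝ E] [FiniteDimensional ℝ E]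
variable {m n : ℕ}

noncomputable section

variable (b : OrthonormalBasis (Fin m ⊕ Fin n) ℝ E)

/-- base coordinates -/
def xc : E →L[ℝ] REF.E m :=
  (EuclideanSpace.equiv (Fin m) ℝ).symm.toContinuousLinearMap.comp
    (ContinuousLinearMap.pi fun i => innerSL ℝ (ev b i))

lemma xc_apply (y : E) (i : Fin m) : xc b y i = ⟪ev b i, y⟫ := rfl

lemma xc_eq_sum (y : E) : xc b y = ∑ i, ⟪ev b i, y⟫ • (bs i : REF.E m) := by
  ext j
  rw [xc_apply]
  simp [bs, Pi.single_apply, Finset.sum_apply]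

lemma xc_ev (i : Fin m) : xc b (ev b i) = bs i := by
  ext j
  rw [xc_apply, inner_ev_ev]
  simp [bs, EuclideanSpace.single_apply, Matrix.one_apply]

lemma xc_cv (a : Fin n) : xc b (cv b a) = 0 := by
  ext j
  rw [xc_apply, inner_ev_cv]
  rfl

/-- lift of a base point -/
def lf : REF.E m →L[ℝ] E :=
  ∑ i, (EuclideanSpace.proj i : REF.E m →L[ℝ] ℝ).smulRight (ev b i)

lemma lf_apply (x : REF.E m) : lf b x = ∑ i, x i • ev b i := by
  unfold lf
  simp [ContinuousLinearMap.sum_apply]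

/-- adapted basis: the first vectors lie in `T`, the others in its complement -/
structure Adapted (T : Submodule ℝ E) (b : OrthonormalBasis (Fin m ⊕ Fin n) ℝ E) : Prop where
  hT : ∀ i, ev b i ∈ T
  hN : ∀ a, cv b a ∈ Tᗮ

variable {b}

lemma Adapted.proj {T : Submodule ℝ E} (h : Adapted T b) (y : E) :
    T.starProjection y = lf b (xc b y) := by
  refine Submodule.eq_starProjection_of_mem_orthogonal ?_ ?_
  · rw [lf_apply]
    exact Submodule.sum_mem _ fun i _ => Submodule.smul_mem _ _ (h.hT i)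
  · have h1 : y - lf b (xc b y) = ∑ a, ⟪cv b a, y⟫ • cv b a := by
      conv_lhs => rw [← b.sum_repr' y, Fintype.sum_sum_type]
      rw [lf_apply]
      simp only [xc_apply]
      have h2 : ∀ i, ⟪ev b i, ∑ x, ⟪b (Sum.inl x), y⟫ • b (Sum.inl x) +
          ∑ x, ⟪b (Sum.inr x), y⟫ • b (Sum.inr x)⟫ = ⟪b (Sum.inl i), y⟫ := by
        intro i
        conv_rhs => rw [← b.sum_repr' y, Fintype.sum_sum_type]
        rfl
      simp only [h2]
      unfold ev cv
      abel
    rw [h1]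
    exact Submodule.sum_mem _ fun a _ => Submodule.smul_mem _ _ (h.hN a)

lemma Adapted.baseCpt {T : Submodule ℝ E} (h : Adapted T b) {G : Set E} {F : Type*} [Zero F]
    {ψ : REF.E m → F} {K : Set (REF.E m)} (hK : IsCompact K) (hKG : ∀ x ∈ K, lf b x ∈ G)
    (h0 : ∀ x, x ∉ K → ψ x = 0) : BaseCpt T G (fun y => ψ (xc b y)) := by
  refine ⟨lf b '' K, hK.image (lf b).continuous, ?_, fun y hy => ?_⟩
  · rintro _ ⟨x, hx, rfl⟩
    exact hKG x hx
  · refine h0 _ fun hx => hy ?_
    rw [h.proj]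
    exact ⟨_, hx, rfl⟩

lemma fderiv_comp_xc {f : REF.E m → ℝ} {y : E} (hf : DifferentiableAt ℝ f (xc b y)) (v : E) :
    fderiv ℝ (fun y => f (xc b y)) y v = ∑ i, pd i f (xc b y) * ⟪ev b i, v⟫ := by
  have h1 : HasFDerivAt (fun y => f (xc b y)) ((fderiv ℝ f (xc b y)).comp (xc b)) y :=
    hf.hasFDerivAt.comp y (xc b).hasFDerivAt
  rw [h1.fderiv, ContinuousLinearMap.comp_apply, xc_eq_sum b v, map_sum]
  refine Finset.sum_congr rfl fun i _ => ?_
  rw [map_smul, smul_eq_mul, mul_comm]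
  rfl

lemma pd_pd {f : REF.E m → ℝ} (hf : ContDiff ℝ 2 f) (i j : Fin m) (x : REF.E m) :
    pd i (pd j f) x = fderiv ℝ (fderiv ℝ f) x (bs i) (bs j) := by
  have h1 : ContDiff ℝ 1 (fderiv ℝ f) := hf.fderiv_right (by norm_num)
  have h2 : HasFDerivAt (fderiv ℝ f) (fderiv ℝ (fderiv ℝ f) x) x :=
    (h1.differentiable (by norm_num) x).hasFDerivAt
  have h3 : HasFDerivAt (pd j f) ((ContinuousLinearMap.apply ℝ ℝ (bs j : REF.E m)).comp
      (fderiv ℝ (fderiv ℝ f) x)) x :=
    (ContinuousLinearMap.apply ℝ ℝ (bs j : REF.E m)).hasFDerivAt.comp x h2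
  unfold pd at h3 ⊢
  rw [h3.fderiv]
  rfl

/-- the hessian trace of a base function -/
lemma hess_comp_xc {f : REF.E m → ℝ} (hf : ContDiff ℝ 2 f) (R : E →L[ℝ] E) (y : E) :
    hess (fun y => f (xc b y)) R y =
      ∑ i, ∑ j, pd i (pd j f) (xc b y) * ⟪ev b i, R (ev b j)⟫ := by
  have hF : ContDiff ℝ 2 (fun y => f (xc b y)) := hf.comp (xc b).contDiff
  rw [hess_eq_sum hF b, Fintype.sum_sum_type]
  have h1 : ContDiff ℝ 1 (fderiv ℝ f) := hf.fderiv_right (by norm_num)
  have h0 : fderiv ℝ (fun y => f (xc b y)) = fun y => (fderiv ℝ f (xc b y)).comp (xc b) := by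
    funext y
    have h2 : HasFDerivAt (fun y => f (xc b y)) ((fderiv ℝ f (xc b y)).comp (xc b)) y :=
      (hf.differentiable (by norm_num) _).hasFDerivAt.comp y (xc b).hasFDerivAt
    exact h2.fderiv
  have h3 : ∀ u v, fderiv ℝ (fderiv ℝ (fun y => f (xc b y))) y u v =
      fderiv ℝ (fderiv ℝ f) (xc b y) (xc b u) (xc b v) := by
    intro u v
    rw [h0]
    have h4 : HasFDerivAt (fun y => fderiv ℝ f (xc b y))
        ((fderiv ℝ (fderiv ℝ f) (xc b y)).comp (xc b)) y :=
      (h1.differentiable (by norm_num) _).hasFDerivAt.comp y (xc b).hasFDerivAt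
    have h5 := (h4.clm_comp (hasFDerivAt_const (xc b) y)).fderiv
    rw [h5]
    simp
  simp only [h3]
  have h6 : ∀ a, xc b (b (Sum.inr a)) = 0 := fun a => xc_cv b a
  have h7 : ∀ j, xc b (b (Sum.inl j)) = bs j := fun j => xc_ev b j
  simp only [h6, h7, map_zero, Finset.sum_const_zero, add_zero]
  rw [Finset.sum_comm]
  refine Finset.sum_congr rfl fun j _ => ?_
  rw [xc_eq_sum b (R (b (Sum.inl j))), map_sum, ContinuousLinearMap.sum_apply]
  refine Finset.sum_congr rfl fun i _ => ?_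
  rw [map_smul, ContinuousLinearMap.smul_apply, smul_eq_mul, pd_pd hf, mul_comm]
  rfl

variable (b)

/-- slopes of the graph -/
def dm (w : Fin n → REF.E m → ℝ) (x : REF.E m) : Matrix (Fin n) (Fin m) ℝ := fun a i => pd i (w a) x

/-- heights relative to the graph -/
def va (w : Fin n → REF.E m → ℝ) (a : Fin n) (y : E) : ℝ := ⟪cv b a, y⟫ - w a (xc b y)

lemma contDiff_va {w : Fin n → REF.E m → ℝ} {k : WithTop ℕ∞} (hw : ∀ a, ContDiff ℝ k (w a))
    (a : Fin n) : ContDiff ℝ k (va b w a) :=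
  (contDiff_const.inner ℝ contDiff_id).sub ((hw a).comp (xc b).contDiff)

lemma fderiv_va {w : Fin n → REF.E m → ℝ} (hw : ∀ a, Differentiable ℝ (w a)) (a : Fin n) (y v : E) :
    fderiv ℝ (va b w a) y v = ⟪nv b (dm w (xc b y)) a, v⟫ := by
  have h1 : HasFDerivAt (fun y : E => ⟪cv b a, y⟫) (innerSL ℝ (cv b a)) y :=
    (innerSL ℝ (cv b a)).hasFDerivAt
  have h2 : HasFDerivAt (fun y => w a (xc b y)) (fderiv ℝ (fun y => w a (xc b y)) y) y :=
    ((hw a _).comp y (xc b).differentiableAt).hasFDerivAt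
  have h3 := (h1.sub h2).fderiv
  have h4 : fderiv ℝ (va b w a) y = innerSL ℝ (cv b a) - fderiv ℝ (fun y => w a (xc b y)) y := h3
  rw [h4, ContinuousLinearMap.sub_apply, fderiv_comp_xc (hw a _)]
  unfold nv dm
  rw [inner_sub_left, sum_inner]
  simp [real_inner_smul_left]

lemma hess_va {w : Fin n → REF.E m → ℝ} (hw : ∀ a, ContDiff ℝ 2 (w a)) (a : Fin n)
    (R : E →L[ℝ] E) (y : E) :
    hess (va b w a) R y = -∑ i, ∑ j, pd i (pd j (w a)) (xc b y) * ⟪ev b i, R (ev b j)⟫ := by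
  rw [← hess_comp_xc (hw a)]
  have hF : ContDiff ℝ 2 (fun y => w a (xc b y)) := (hw a).comp (xc b).contDiff
  have hlin : ContDiff ℝ 2 (fun y : E => ⟪cv b a, y⟫) := contDiff_const.inner ℝ contDiff_id
  have h1 : ∀ y, fderiv ℝ (va b w a) y = innerSL ℝ (cv b a) - fderiv ℝ (fun y => w a (xc b y)) y := by
    intro y
    have h1 : HasFDerivAt (fun y : E => ⟪cv b a, y⟫) (innerSL ℝ (cv b a)) y :=
      (innerSL ℝ (cv b a)).hasFDerivAt
    have h2 : HasFDerivAt (fun y => w a (xc b y)) (fderiv ℝ (fun y => w a (xc b y)) y) y :=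
      (hF.differentiable (by norm_num) y).hasFDerivAt
    exact (h1.sub h2).fderiv
  rw [hess_eq_sum (contDiff_va b hw a) b, hess_eq_sum hF b, ← Finset.sum_neg_distrib]
  refine Finset.sum_congr rfl fun k _ => ?_
  have h2 : fderiv ℝ (va b w a) = fun y => innerSL ℝ (cv b a) - fderiv ℝ (fun y => w a (xc b y)) y :=
    funext h1
  rw [h2]
  have h3 : HasFDerivAt (fderiv ℝ (fun y => w a (xc b y)))
      (fderiv ℝ (fderiv ℝ (fun y => w a (xc b y))) y) y :=
    ((hF.fderiv_right (m := 1) (by norm_num)).differentiable (by norm_num) y).hasFDerivAt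
  have h4 := (h3.const_sub (innerSL ℝ (cv b a))).fderiv
  rw [h4]
  simp

end

end Vale.Agent.P214.AVG
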