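import Vale.Agent.P214.AVG.Adj

/-!
# P214, block AVG: the adjoint of the linearised minimal surface operator

On an exact graph `L_w^t φ = √g · LLop w (√g φ)`.
-/

open Set Filter Topology MeasureTheory Metric
open scoped RealInnerProductSpace ContDiff

set_option linter.all false

namespace Vale.Agent.P214.AVG

open Vale.Agent.P214.REF (pd bs)

variable {m n : ℕ}

noncomputable section

variable {w : Fin n → REF.E m → ℝ} {x : REF.E m}

lemma pd_congr_nhds {f g : REF.E m → ℝ} {x : REF.E m} (h : f =ᶠ[𝓝 x] g) (i : Fin m) :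
    pd i f x = pd i g x := by
  unfold pd
  rw [h.fderiv_eq]

/-- the densitised inverse metric -/
def Gd (w : Fin n → REF.E m → ℝ) (i j : Fin m) (x : REF.E m) : ℝ := sg w x * gi (dm w x) i j

lemma Gd_comm (i j : Fin m) : Gd w i j = Gd w j i := by
  funext x
  unfold Gd
  rw [gi_comm]

lemma contDiff_Gd {k : ℕ∞} (hw : ∀ a, ContDiff ℝ (k + 1 : ℕ∞) (w a)) (i j : Fin m) :
    ContDiff ℝ k (Gd w i j) :=
  (contDiff_sg hw).mul (contDiff_gi (contDiff_dm hw) i j)

lemma adj_eq_Gd (i j : Fin m) (x : REF.E m) :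
    (REF.gm w x).adjugate i j = sg w x * Gd w i j x := by
  unfold Gd
  rw [← mul_assoc, ← sq, sg_sq, gm_eq]
  have hd : (gmat (dm w x)).det ≠ 0 := (gmat_posDef _).det_pos.ne'
  unfold gi
  rw [Matrix.inv_def, Matrix.smul_apply, smul_eq_mul, Ring.inverse_eq_inv', ← mul_assoc,
    mul_inv_cancel₀ hd, one_mul]

/-- one component of the auxiliary coefficient field -/
def Za (w ψ : Fin n → REF.E m → ℝ) (c : Fin n) (a : Fin n) (j : Fin m) (x : REF.E m) : ℝ :=
  ∑ i, ψ a x * pd i (pd j (w a)) x * be (dm w x) c i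

lemma Zc_eq_sum (ψ : Fin n → REF.E m → ℝ) (c : Fin n) (j : Fin m) :
    Zc w ψ c j = fun x => ∑ a, Za w ψ c a j x := rfl

lemma contDiff_Za {ψ : Fin n → REF.E m → ℝ} (hw : ∀ a, ContDiff ℝ 3 (w a))
    (hψ : ∀ a, ContDiff ℝ 1 (ψ a)) (c a : Fin n) (j : Fin m) : ContDiff ℝ 1 (Za w ψ c a j) := by
  unfold Za
  have h1 : ∀ a i, ContDiff ℝ 2 (pd i (w a)) := fun a i =>
    contDiff_pd (k := 3) (l := 2) (hw a) (by norm_num) i
  have h2 : ∀ a i, ContDiff ℝ 1 (pd i (pd j (w a))) := fun a i =>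
    contDiff_pd (k := 2) (l := 1) (h1 a j) (by norm_num) i
  have h3 : ∀ a i, ContDiff ℝ 1 fun x => dm w x a i := fun a i => (h1 a i).of_le (by norm_num)
  exact ContDiff.sum fun i _ => ((hψ a).mul (h2 a i)).mul (contDiff_be h3 c i)

theorem adj_identity {U : Set (REF.E m)} (hU : IsOpen U) (hw : ∀ a, ContDiff ℝ ∞ (w a))
    (hmse : ∀ x ∈ U, ∀ a, ∑ i, ∑ j, gi (dm w x) i j * pd i (pd j (w a)) x = 0)
    {φ : Fin n → REF.E m → ℝ} (hφ : ∀ a, ContDiff ℝ ∞ (φ a)) (hx : x ∈ U) (c : Fin n)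
    (B : Fin n → Fin m → REF.E m → ℝ)
    (hB : ∀ x ∈ U, ∀ a k, B a k x = -2 * (gmat (dm w x)).det * ∑ i, ∑ j, be (dm w x) c i *
      gi (dm w x) k j * pd i (pd j (w a)) x) :
    ∑ i, ∑ j, pd i (pd j fun x => (REF.gm w x).adjugate i j * φ c x) x -
      ∑ a, ∑ k, pd k (fun x => B a k x * φ a x) x =
      sg w x * LLop w (fun a x => sg w x * φ a x) c x := by
  have hw3 : ∀ a, ContDiff ℝ 3 (w a) := fun a => by exact_mod_cast contDiff_infty.1 (hw a) 3
  have hw2 : ∀ a, ContDiff ℝ 2 (w a) := fun a => by exact_mod_cast contDiff_infty.1 (hw a) 2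
  have hw1 : ∀ a, ContDiff ℝ ((2 : ℕ∞) + 1 : ℕ∞) (w a) := fun a =>
    (hw a).of_le (by exact_mod_cast le_top)
  set ψ : Fin n → REF.E m → ℝ := fun a x => sg w x * φ a x with hψ
  have hψ2 : ∀ a, ContDiff ℝ 2 (ψ a) := fun a =>
    (contDiff_sg (k := 2) hw1).mul (by exact_mod_cast contDiff_infty.1 (hφ a) 2)
  have hψ1 : ∀ a, ContDiff ℝ 1 (ψ a) := fun a => (hψ2 a).of_le (by norm_num)
  have hG2 : ∀ i j, ContDiff ℝ 2 (Gd w i j) := fun i j => contDiff_Gd (k := 2) hw1 i j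
  have hG1 : ∀ i j k, ContDiff ℝ 1 (pd k (Gd w i j)) := fun i j k =>
    contDiff_pd (k := 2) (l := 1) (hG2 i j) (by norm_num) k
  have hψp : ∀ a j, ContDiff ℝ 1 (pd j (ψ a)) := fun a j =>
    contDiff_pd (k := 2) (l := 1) (hψ2 a) (by norm_num) j
  have hdiv : ∀ x ∈ U, ∀ j, ∑ i, pd i (Gd w i j) x = 0 := fun x hx j =>
    div_sg_gi hw2 (hmse x hx) j
  have dd : ∀ {f : REF.E m → ℝ}, ContDiff ℝ 1 f → ∀ x, DifferentiableAt ℝ f x := fun hf x =>
    hf.contDiffAt.differentiableAt (by simp)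
  have dd2 : ∀ {f : REF.E m → ℝ}, ContDiff ℝ 2 f → ∀ x, DifferentiableAt ℝ f x := fun hf x =>
    hf.contDiffAt.differentiableAt (by simp)
  -- the second order part
  have h1 : ∀ i j, (fun x => (REF.gm w x).adjugate i j * φ c x) = fun x => Gd w i j x * ψ c x := by
    intro i j
    funext x
    rw [adj_eq_Gd, hψ]
    ring
  have h2 : ∀ i j, pd j (fun x => Gd w i j x * ψ c x) =
      fun x => pd j (Gd w i j) x * ψ c x + Gd w i j x * pd j (ψ c) x := by
    intro i j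
    funext x
    exact pd_mul' j (dd2 (hG2 i j) x) (dd2 (hψ2 c) x)
  have h3 : ∀ i j, pd i (fun x => pd j (Gd w i j) x * ψ c x + Gd w i j x * pd j (ψ c) x) x =
      pd i (fun x => pd j (Gd w i j) x * ψ c x) x + (pd i (Gd w i j) x * pd j (ψ c) x +
        Gd w i j x * pd i (pd j (ψ c)) x) := by
    intro i j
    have e1 : DifferentiableAt ℝ (fun x => pd j (Gd w i j) x * ψ c x) x :=
      (dd (hG1 i j j) x).mul (dd2 (hψ2 c) x)
    have e2 : DifferentiableAt ℝ (fun x => Gd w i j x * pd j (ψ c) x) x :=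
      (dd2 (hG2 i j) x).mul (dd (hψp c j) x)
    rw [pd_add' i e1 e2, pd_mul' i (dd2 (hG2 i j) x) (dd (hψp c j) x)]
  have h4 : ∀ i, ∑ j, pd i (fun x => pd j (Gd w i j) x * ψ c x) x = 0 := by
    intro i
    rw [← pd_sum' i Finset.univ (F := fun j x => pd j (Gd w i j) x * ψ c x)
      (fun j _ => (dd (hG1 i j j) x).mul (dd2 (hψ2 c) x))]
    have h5 : (fun x => ∑ j, pd j (Gd w i j) x * ψ c x) =ᶠ[𝓝 x] fun _ => (0 : ℝ) := by
      filter_upwards [hU.mem_nhds hx] with y hy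
      rw [← Finset.sum_mul]
      have h6 := hdiv y hy i
      have h7 : ∑ j, pd j (Gd w i j) y = ∑ j, pd j (Gd w j i) y :=
        Finset.sum_congr rfl fun j _ => by rw [Gd_comm]
      rw [h7, h6, zero_mul]
    rw [pd_congr_nhds h5, pd_const']
  have h5 : ∑ i, ∑ j, pd i (pd j fun x => (REF.gm w x).adjugate i j * φ c x) x =
      ∑ i, ∑ j, Gd w i j x * pd i (pd j (ψ c)) x := by
    simp only [h1, h2, h3, Finset.sum_add_distrib, h4, Finset.sum_const_zero, zero_add]
    have h6 : ∑ i, ∑ j, pd i (Gd w i j) x * pd j (ψ c) x = 0 := by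
      rw [Finset.sum_comm]
      refine Finset.sum_eq_zero fun j _ => ?_
      rw [← Finset.sum_mul, hdiv x hx j, zero_mul]
    rw [h6, zero_add]
  -- the first order part
  have hZa : ∀ a j, ContDiff ℝ 1 (Za w ψ c a j) := fun a j => contDiff_Za hw3 hψ1 c a j
  have h6 : ∀ a k, pd k (fun x => B a k x * φ a x) x =
      -2 * ∑ j, (pd k (Gd w k j) x * Za w ψ c a j x + Gd w k j x * pd k (Za w ψ c a j) x) := by
    intro a k
    have h7 : (fun x => B a k x * φ a x) =ᶠ[𝓝 x] fun x => -2 * ∑ j, Gd w k j x * Za w ψ c a j x := by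
      filter_upwards [hU.mem_nhds hx] with y hy
      rw [hB y hy, ← sg_sq]
      have h8 : ∀ j, Gd w k j y * Za w ψ c a j y = sg w y ^ 2 * φ a y * ∑ i, be (dm w y) c i *
          gi (dm w y) k j * pd i (pd j (w a)) y := by
        intro j
        unfold Gd Za
        rw [Finset.mul_sum, Finset.mul_sum]
        refine Finset.sum_congr rfl fun i _ => ?_
        simp only [hψ]
        ring
      simp only [h8, ← Finset.mul_sum]
      rw [Finset.sum_comm]
      ring
    have e1 : ∀ j, DifferentiableAt ℝ (fun x => Gd w k j x * Za w ψ c a j x) x := fun j =>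
      (dd2 (hG2 k j) x).mul (dd (hZa a j) x)
    rw [pd_congr_nhds h7, pd_const_mul' k _ (DifferentiableAt.fun_sum fun j _ => e1 j),
      pd_sum' k _ (fun j _ => e1 j)]
    congr 1
    refine Finset.sum_congr rfl fun j _ => ?_
    rw [pd_mul' k (dd2 (hG2 k j) x) (dd (hZa a j) x)]
  have h7 : ∑ a, ∑ k, pd k (fun x => B a k x * φ a x) x =
      -2 * ∑ k, ∑ j, Gd w k j x * pd k (Zc w ψ c j) x := by
    simp only [h6, ← Finset.mul_sum, Finset.sum_add_distrib]
    have h8 : ∑ a, ∑ k, ∑ j, pd k (Gd w k j) x * Za w ψ c a j x = 0 := by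
      refine Finset.sum_eq_zero fun a _ => ?_
      rw [Finset.sum_comm]
      refine Finset.sum_eq_zero fun j _ => ?_
      rw [← Finset.sum_mul, hdiv x hx j, zero_mul]
    rw [h8, zero_add]
    congr 1
    rw [Finset.sum_comm]
    refine Finset.sum_congr rfl fun k _ => ?_
    rw [Finset.sum_comm]
    refine Finset.sum_congr rfl fun j _ => ?_
    rw [← Finset.mul_sum]
    congr 1
    rw [Zc_eq_sum, pd_sum' k _ (fun a _ => dd (hZa a j) x)]
  rw [h5, h7]
  unfold LLop Gd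
  simp only [mul_assoc, ← Finset.mul_sum]
  ring

end

end Vale.Agent.P214.AVG
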