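import Vale.Agent.P214.AVG.Weak
import Vale.Agent.P214.FV.Trunc

/-!
# P214, block AVG: the estimate

`weak_eq`: `|∫ ∑_c v_c LLop w ψ c dν| ≤ C M ∫_{K} (e_w + |v| (|Dw| √e_w + e_w))`.
-/

open Set Filter Topology MeasureTheory Metric
open scoped RealInnerProductSpace ContDiff

set_option linter.all false

namespace Vale.Agent.P214.AVG

open Vale.Agent.P214.FV
open Vale.Agent.P214.REF (pd bs)

variable {E : Type*} [NormedAddCommGroup E] [InnerProductSpace ℝ E] [FiniteDimensional ℝ E]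
variable {m n : ℕ}

noncomputable section

/-- pointwise algebra behind the weak equation -/
lemma pointwise (b : OrthonormalBasis (Fin m ⊕ Fin n) ℝ E) (d : Matrix (Fin n) (Fin m) ℝ)
    {S : Submodule ℝ E} (hS : Module.finrank ℝ S = m) {lam M : ℝ} (hd : ∀ a i, |d a i| ≤ lam)
    (H : Fin n → Fin m → Fin m → ℝ) (hH : ∀ a i j, H a i j = H a j i)
    (hH1 : ∀ a i j, |H a i j| ≤ 1) (hmse : ∀ a, ∑ i, ∑ j, gi d i j * H a i j = 0)
    (v ψ : Fin n → ℝ) (ψ2 : Fin n → Fin m → Fin m → ℝ) (Z : Fin n → Fin m → ℝ)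
    (Z1 : Fin n → Fin m → Fin m → ℝ) (hZ : ∀ c j, Z c j = ∑ a, ∑ i, ψ a * H a i j * be d c i)
    (hM : 0 ≤ M) (hψ : ∀ a, |ψ a| ≤ M) (hψ2 : ∀ a i j, |ψ2 a i j| ≤ M)
    (hZ1 : ∀ c j k, |Z1 c j k| ≤ M) :
    |(∑ c, v c * (∑ i, ∑ j, gi d i j * ψ2 c i j + 2 * ∑ k, ∑ j, gi d k j * Z1 c j k)) -
      ((∑ c, v c * ∑ i, ∑ j, ψ2 c i j * ⟪ev b i, S.starProjection (ev b j)⟫) +
        ∑ c, ψ c * ∑ i, ∑ j, H c i j * ⟪ev b i, S.starProjection (ev b j)⟫) -
      2 * ∑ c, ∑ j, (Z c j * ⟪nv b d c, S.starProjection (ev b j)⟫ +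
        v c * ∑ k, Z1 c j k * ⟪ev b k, S.starProjection (ev b j)⟫)| ≤
    M * (2 * n ^ 2 * m ^ 2 * ew b d S.starProjection + (∑ c, |v c|) * (3 * m ^ 2 *
      (2 * n * (m * lam * √(ew b d S.starProjection) + ew b d S.starProjection)))) := by
  set A : Fin m → Fin m → ℝ := fun i j => ⟪ev b i, S.starProjection (ev b j)⟫ with hA
  set e := ew b d S.starProjection with he
  set L := 2 * (n : ℝ) * (m * lam * √e + e) with hL
  set N : Fin n → Fin m → ℝ := fun a j => ⟪ev b j, S.starProjection (nv b d a)⟫ with hN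
  have hNs : ∀ a j, ⟪nv b d a, S.starProjection (ev b j)⟫ = N a j := fun a j => by
    rw [hN]
    simp only
    rw [← inner_star, real_inner_comm]
  have hAg : ∀ i j, |A i j - gi d i j| ≤ L := fun i j => block_sub_le b d hS hd i j
  -- the remainder of the linearisation
  set Rm : Fin m → Fin m → ℝ := fun i j =>
    A i j - gi d i j + ∑ a, be d a i * N a j + ∑ a, be d a j * N a i with hRm
  have hR : ∀ i j, |Rm i j| ≤ 2 * n * e := fun i j => lin_block b d hS i j
  have hlin : ∀ c, ∑ i, ∑ j, H c i j * A i j =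
      -2 * ∑ i, ∑ j, H c i j * ∑ a, be d a i * N a j + ∑ i, ∑ j, H c i j * Rm i j := by
    intro c
    have h1 : ∀ i j, H c i j * A i j = gi d i j * H c i j + H c i j * Rm i j -
        H c i j * ∑ a, be d a i * N a j - H c i j * ∑ a, be d a j * N a i := by
      intro i j
      rw [hRm]
      ring
    simp only [h1, Finset.sum_sub_distrib, Finset.sum_add_distrib, hmse c]
    have h2 : ∑ i, ∑ j, H c i j * ∑ a, be d a j * N a i =
        ∑ i, ∑ j, H c i j * ∑ a, be d a i * N a j := by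
      rw [Finset.sum_comm]
      refine Finset.sum_congr rfl fun i _ => Finset.sum_congr rfl fun j _ => ?_
      rw [hH]
    rw [h2]
    ring
  have hZN : ∑ c, ∑ j, Z c j * N c j = ∑ a, ψ a * ∑ i, ∑ j, H a i j * ∑ c, be d c i * N c j := by
    have h1 : ∀ c j, Z c j * N c j = ∑ a, ∑ i, ψ a * H a i j * be d c i * N c j := by
      intro c j
      rw [hZ, Finset.sum_mul]
      exact Finset.sum_congr rfl fun a _ => Finset.sum_mul _ _ _
    have h2 : ∀ a, ψ a * ∑ i, ∑ j, H a i j * ∑ c, be d c i * N c j =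
        ∑ i, ∑ j, ∑ c, ψ a * H a i j * be d c i * N c j := by
      intro a
      rw [Finset.mul_sum]
      refine Finset.sum_congr rfl fun i _ => ?_
      rw [Finset.mul_sum]
      refine Finset.sum_congr rfl fun j _ => ?_
      rw [Finset.mul_sum, Finset.mul_sum]
      exact Finset.sum_congr rfl fun c _ => by ring
    simp only [h1, h2]
    have h3 : ∀ c, ∑ j, ∑ a, ∑ i, ψ a * H a i j * be d c i * N c j =
        ∑ a, ∑ i, ∑ j, ψ a * H a i j * be d c i * N c j := by
      intro c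
      rw [Finset.sum_comm]
      exact Finset.sum_congr rfl fun a _ => Finset.sum_comm
    simp only [h3]
    rw [Finset.sum_comm]
    refine Finset.sum_congr rfl fun a _ => ?_
    rw [Finset.sum_comm]
    exact Finset.sum_congr rfl fun i _ => Finset.sum_comm
  have he0 : 0 ≤ e := ew_nonneg b d _
  have hB1 : ∀ c, |∑ i, ∑ j, (gi d i j - A i j) * ψ2 c i j +
      2 * ∑ k, ∑ j, (gi d k j - A k j) * Z1 c j k| ≤ M * (3 * m ^ 2 * L) := by
    intro c
    have h1 : ∀ (F : Fin m → Fin m → ℝ), (∀ i j, |F i j| ≤ M) →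
        |∑ i, ∑ j, (gi d i j - A i j) * F i j| ≤ m ^ 2 * (L * M) := by
      intro F hF
      refine (Finset.abs_sum_le_sum_abs _ _).trans ?_
      calc ∑ i, |∑ j, (gi d i j - A i j) * F i j| ≤ ∑ _i : Fin m, ∑ _j : Fin m, L * M := by
            refine Finset.sum_le_sum fun i _ => (Finset.abs_sum_le_sum_abs _ _).trans ?_
            refine Finset.sum_le_sum fun j _ => ?_
            rw [abs_mul, abs_sub_comm]
            exact mul_le_mul (hAg i j) (hF i j) (abs_nonneg _) ((abs_nonneg _).trans (hAg i j))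
        _ = m ^ 2 * (L * M) := by simp; ring
    have h2 := h1 (fun i j => ψ2 c i j) (hψ2 c)
    have h3 := h1 (fun k j => Z1 c j k) (fun k j => hZ1 c j k)
    refine (abs_add_le _ _).trans ?_
    rw [abs_mul, abs_two]
    linarith
  have hB2 : ∀ c, |∑ i, ∑ j, H c i j * Rm i j| ≤ m ^ 2 * (2 * n * e) := by
    intro c
    refine (Finset.abs_sum_le_sum_abs _ _).trans ?_
    calc ∑ i, |∑ j, H c i j * Rm i j| ≤ ∑ _i : Fin m, ∑ _j : Fin m, (2 * n * e) := by
          refine Finset.sum_le_sum fun i _ => (Finset.abs_sum_le_sum_abs _ _).trans ?_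
          refine Finset.sum_le_sum fun j _ => ?_
          rw [abs_mul]
          calc |H c i j| * |Rm i j| ≤ 1 * (2 * n * e) :=
                mul_le_mul (hH1 c i j) (hR i j) (abs_nonneg _) zero_le_one
            _ = _ := one_mul _
      _ = m ^ 2 * (2 * n * e) := by simp; ring
  have hJ : (∑ c, v c * (∑ i, ∑ j, gi d i j * ψ2 c i j + 2 * ∑ k, ∑ j, gi d k j * Z1 c j k)) -
      ((∑ c, v c * ∑ i, ∑ j, ψ2 c i j * A i j) + ∑ c, ψ c * ∑ i, ∑ j, H c i j * A i j) -
      2 * ∑ c, ∑ j, (Z c j * ⟪nv b d c, S.starProjection (ev b j)⟫ +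
        v c * ∑ k, Z1 c j k * A k j) =
      ∑ c, v c * (∑ i, ∑ j, (gi d i j - A i j) * ψ2 c i j +
        2 * ∑ k, ∑ j, (gi d k j - A k j) * Z1 c j k) - ∑ c, ψ c * ∑ i, ∑ j, H c i j * Rm i j := by
    have h1 : ∑ c, ψ c * ∑ i, ∑ j, H c i j * A i j = -2 * ∑ c, ∑ j, Z c j * N c j +
        ∑ c, ψ c * ∑ i, ∑ j, H c i j * Rm i j := by
      rw [hZN, Finset.mul_sum, ← Finset.sum_add_distrib]
      refine Finset.sum_congr rfl fun c _ => ?_
      rw [hlin]
      ring
    have h2 : ∑ c, ∑ j, (Z c j * ⟪nv b d c, S.starProjection (ev b j)⟫ +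
        v c * ∑ k, Z1 c j k * A k j) = ∑ c, ∑ j, Z c j * N c j +
        ∑ c, v c * ∑ k, ∑ j, Z1 c j k * A k j := by
      rw [← Finset.sum_add_distrib]
      refine Finset.sum_congr rfl fun c _ => ?_
      rw [Finset.sum_add_distrib, ← Finset.mul_sum, Finset.sum_comm]
      simp only [hNs]
    have h3 : ∀ c, v c * (∑ i, ∑ j, (gi d i j - A i j) * ψ2 c i j +
        2 * ∑ k, ∑ j, (gi d k j - A k j) * Z1 c j k) =
        v c * (∑ i, ∑ j, gi d i j * ψ2 c i j + 2 * ∑ k, ∑ j, gi d k j * Z1 c j k) -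
        v c * ∑ i, ∑ j, ψ2 c i j * A i j - 2 * (v c * ∑ k, ∑ j, Z1 c j k * A k j) := by
      intro c
      have h4 : ∑ i, ∑ j, (gi d i j - A i j) * ψ2 c i j =
          ∑ i, ∑ j, gi d i j * ψ2 c i j - ∑ i, ∑ j, ψ2 c i j * A i j := by
        rw [← Finset.sum_sub_distrib]
        refine Finset.sum_congr rfl fun i _ => ?_
        rw [← Finset.sum_sub_distrib]
        exact Finset.sum_congr rfl fun j _ => by ring
      have h5 : ∑ k, ∑ j, (gi d k j - A k j) * Z1 c j k =
          ∑ k, ∑ j, gi d k j * Z1 c j k - ∑ k, ∑ j, Z1 c j k * A k j := by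
        rw [← Finset.sum_sub_distrib]
        refine Finset.sum_congr rfl fun i _ => ?_
        rw [← Finset.sum_sub_distrib]
        exact Finset.sum_congr rfl fun j _ => by ring
      rw [h4, h5]
      ring
    rw [h1, h2]
    simp only [h3, Finset.sum_sub_distrib, ← Finset.mul_sum]
    ring
  rw [hJ]
  have hT1 : |∑ c, v c * (∑ i, ∑ j, (gi d i j - A i j) * ψ2 c i j +
      2 * ∑ k, ∑ j, (gi d k j - A k j) * Z1 c j k)| ≤ (∑ c, |v c|) * (M * (3 * m ^ 2 * L)) := by
    refine (Finset.abs_sum_le_sum_abs _ _).trans ?_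
    rw [Finset.sum_mul]
    refine Finset.sum_le_sum fun c _ => ?_
    rw [abs_mul]
    exact mul_le_mul_of_nonneg_left (hB1 c) (abs_nonneg _)
  have hT2 : |∑ c, ψ c * ∑ i, ∑ j, H c i j * Rm i j| ≤ n * (M * (m ^ 2 * (2 * n * e))) := by
    refine (Finset.abs_sum_le_sum_abs _ _).trans ?_
    calc ∑ c, |ψ c * ∑ i, ∑ j, H c i j * Rm i j| ≤ ∑ _c : Fin n, M * (m ^ 2 * (2 * n * e)) := by
          refine Finset.sum_le_sum fun c _ => ?_
          rw [abs_mul]
          exact mul_le_mul (hψ c) (hB2 c) (abs_nonneg _) hM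
      _ = _ := by simp
  refine (abs_sub _ _).trans ?_
  linarith

variable [MeasurableSpace E] [BorelSpace E]
variable {b : OrthonormalBasis (Fin m ⊕ Fin n) ℝ E} {T : Submodule ℝ E} {G : Set E} {h : ℝ}
  {ν : Measure E} {P : E → E →L[ℝ] E}

/-- integrability over compact sets of base points -/
lemma integrableOn_gen (hC : CylStat m T G h ν P) {Φ : (E →L[ℝ] E) × E → ℝ}
    (hΦ : Continuous Φ) {K : Set E} (hK : IsCompact K) (hKG : K ⊆ G) :
    IntegrableOn (fun y => Φ (P y, y)) {y | T.starProjection y ∈ K} ν := by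
  have := hC.fin
  haveI : ProperSpace (E →L[ℝ] E) := FiniteDimensional.proper ℝ (E →L[ℝ] E)
  have hcpt : IsCompact ((closedBall (0 : E →L[ℝ] E) 1) ×ˢ
      {y : E | T.starProjection y ∈ K ∧ ‖y - T.starProjection y‖ ≤ h}) :=
    (isCompact_closedBall _ _).prod (isCompact_slab T hK h)
  obtain ⟨C, hCb⟩ := hcpt.exists_bound_of_continuousOn hΦ.continuousOn
  have hmeas : MeasurableSet {y | T.starProjection y ∈ K} :=
    (hK.isClosed.preimage T.starProjection.continuous).measurableSet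
  refine Integrable.mono' (integrable_const (max C 0)) (hC.aesm hΦ).restrict ?_
  rw [ae_restrict_iff' hmeas]
  filter_upwards [hC.norm_le, hC.slab] with y hy hy' hyK
  exact (hCb (P y, y) ⟨by simpa using hy, hyK, hy' (hKG hyK)⟩).trans (le_max_left _ _)

omit [FiniteDimensional ℝ E] [MeasurableSpace E] [BorelSpace E] in
lemma pd_eq_zero_off {f : REF.E m → ℝ} (hf : ContDiff ℝ 1 f) {S : Set (REF.E m)}
    (hS : Sᶜ ⊆ closure (interior Sᶜ)) (h0 : ∀ x, x ∉ S → f x = 0) (i : Fin m) {x : REF.E m}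
    (hx : x ∉ S) : pd i f x = 0 := by
  have hc : Continuous (pd i f) :=
    (contDiff_pd (k := 1) (l := 0) hf (by norm_num) i).continuous
  have h1 : interior Sᶜ ⊆ {x | pd i f x = 0} := by
    intro y hy
    have h2 : f =ᶠ[𝓝 y] fun _ => (0 : ℝ) := by
      filter_upwards [isOpen_interior.mem_nhds hy] with z hz
      exact h0 z (interior_subset hz)
    show pd i f y = 0
    unfold pd
    rw [h2.fderiv_eq]
    simp
  have h2 : IsClosed {x | pd i f x = 0} := isClosed_eq hc continuous_const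
  exact (h2.closure_subset_iff.2 h1) (hS hx)

/-- the constant of the weak equation -/
def Cw (m n : ℕ) : ℝ := 2 * n ^ 2 * m ^ 2 + 6 * m ^ 3 * n + 6 * m ^ 2 * n

/-- the error density of the weak equation -/
def eden (b : OrthonormalBasis (Fin m ⊕ Fin n) ℝ E) (w : Fin n → REF.E m → ℝ) (lam : ℝ)
    (R : E →L[ℝ] E) (y : E) : ℝ :=
  ew b (dm w (xc b y)) R + (∑ c, |va b w c y|) *
    (lam * √(ew b (dm w (xc b y)) R) + ew b (dm w (xc b y)) R)

/-- **The weak equation of the heights relative to an exact minimal graph.** -/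
theorem weak_eq (hC : CylStat m T G h ν P) (hb : Adapted T b) {w : Fin n → REF.E m → ℝ}
    (hw : ∀ a, ContDiff ℝ 3 (w a)) {ψ : Fin n → REF.E m → ℝ} (hψ : ∀ a, ContDiff ℝ 2 (ψ a))
    {K S : Set (REF.E m)} (hK : IsCompact K) (hKG : ∀ x ∈ K, lf b x ∈ G) (hSm : MeasurableSet S)
    (hSK : S ⊆ K) (hSc : Sᶜ ⊆ closure (interior Sᶜ))
    (h0S : ∀ a x, x ∉ S → ψ a x = 0) {lam M : ℝ} (hM : 0 ≤ M)
    (hd : ∀ x ∈ S, ∀ a i, |pd i (w a) x| ≤ lam)
    (hH : ∀ x ∈ S, ∀ a i j, |pd i (pd j (w a)) x| ≤ 1)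
    (hmse : ∀ x ∈ S, ∀ a, ∑ i, ∑ j, gi (dm w x) i j * pd i (pd j (w a)) x = 0)
    (hψ0 : ∀ x ∈ S, ∀ a, |ψ a x| ≤ M) (hψ2 : ∀ x ∈ S, ∀ a i j, |pd i (pd j (ψ a)) x| ≤ M)
    (hZ : ∀ x ∈ S, ∀ c j k, |pd k (Zc w ψ c j) x| ≤ M) :
    |∫ y, ∑ c, va b w c y * LLop w ψ c (xc b y) ∂ν| ≤
      M * (Cw m n * ∫ y in {y | xc b y ∈ S}, eden b w lam (P y) y ∂ν) := by
  -- smoothness
  have hw2 : ∀ a, ContDiff ℝ 2 (w a) := fun a => (hw a).of_le (by norm_num)
  have hw1 : ∀ a, ContDiff ℝ 1 (w a) := fun a => (hw a).of_le (by norm_num)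
  have hZs : ∀ c j, ContDiff ℝ 1 (Zc w ψ c j) := fun c j =>
    contDiff_Zc hw (fun a => (hψ a).of_le (by norm_num)) c j
  have hψ1 : ∀ a, ContDiff ℝ 1 (ψ a) := fun a => (hψ a).of_le (by norm_num)
  have hψp1 : ∀ a j, ContDiff ℝ 1 (pd j (ψ a)) := fun a j =>
    contDiff_pd (k := 2) (l := 1) (hψ a) (by norm_num) j
  have h0 : ∀ a x, x ∉ K → ψ a x = 0 := fun a x hx => h0S a x fun h' => hx (hSK h')
  have hZ0S : ∀ c j x, x ∉ S → Zc w ψ c j x = 0 := by
    intro c j x hx
    unfold Zc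
    simp [h0S _ x hx]
  have hZ0 : ∀ c j x, x ∉ K → Zc w ψ c j x = 0 := fun c j x hx => hZ0S c j x fun h' => hx (hSK h')
  have hpw : ∀ a i, Continuous (pd i (w a)) := fun a i =>
    (contDiff_pd (k := 3) (l := 2) (hw a) (by norm_num) i).continuous
  have hpw2 : ∀ a i j, Continuous (pd i (pd j (w a))) := fun a i j =>
    (contDiff_pd (k := 2) (l := 1) (contDiff_pd (k := 3) (l := 2) (hw a) (by norm_num) j)
      (by norm_num) i).continuous
  have hpψ2 : ∀ a i j, Continuous (pd i (pd j (ψ a))) := fun a i j =>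
    (contDiff_pd (k := 1) (l := 0) (contDiff_pd (k := 2) (l := 1) (hψ a) (by norm_num) j)
      (by norm_num) i).continuous
  have hpZ : ∀ c j k, Continuous (pd k (Zc w ψ c j)) := fun c j k =>
    (contDiff_pd (k := 1) (l := 0) (hZs c j) (by norm_num) k).continuous
  have hvac : ∀ c, Continuous (va b w c) := fun c => (contDiff_va b hw1 c).continuous
  have hnvc : ∀ c, Continuous fun y => nv b (dm w (xc b y)) c := by
    intro c
    unfold nv dm
    refine continuous_const.sub (continuous_finset_sum _ fun i _ => ?_)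
    exact ((hpw c i).comp (xc b).continuous).smul continuous_const
  have hgi : ∀ i j, Continuous fun x => gi (dm w x) i j := fun i j =>
    (contDiff_gi (k := 0) (D := fun x => dm w x) (fun a i => contDiff_zero.2 (hpw a i)) i j).continuous
  have hewc : Continuous fun p : (E →L[ℝ] E) × E => ew b (dm w (xc b p.2)) p.1 := by
    unfold ew
    refine continuous_finset_sum _ fun a _ => ?_
    exact ((continuous_fst.clm_apply ((hnvc a).comp continuous_snd)).norm).pow 2
  have hKT : ∀ y, xc b y ∈ K ↔ T.starProjection y ∈ lf b '' K := by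
    intro y
    rw [hb.proj]
    constructor
    · exact fun hy => ⟨_, hy, rfl⟩
    · rintro ⟨x, hx, hxy⟩
      have h1 := congrArg (xc b) hxy
      have h2 : ∀ x, xc b (lf b x) = x := by
        intro x
        ext i
        rw [xc_apply, lf_apply, inner_sum]
        simp [inner_smul_right, inner_ev_ev, Matrix.one_apply]
      rw [h2, h2] at h1
      rwa [← h1]
  have hK' : IsCompact (lf b '' K) := hK.image (lf b).continuous
  have hKG' : lf b '' K ⊆ G := by
    rintro _ ⟨x, hx, rfl⟩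
    exact hKG x hx
  have hfst : ∀ v : E, Continuous fun p : (E →L[ℝ] E) × E => p.1 v := fun v =>
    continuous_fst.clm_apply continuous_const
  have hcx : ∀ {f : REF.E m → ℝ}, Continuous f → Continuous fun p : (E →L[ℝ] E) × E => f (xc b p.2) :=
    fun hf => (hf.comp (xc b).continuous).comp continuous_snd
  have hint : ∀ {Φ : (E →L[ℝ] E) × E → ℝ}, Continuous Φ → (∀ B y, xc b y ∉ K → Φ (B, y) = 0) →
      Integrable (fun y => Φ (P y, y)) ν := fun hΦ h' =>
    hC.integrable_gen hΦ hK' hKG' (fun B y hy => h' B y (fun h'' => hy ((hKT y).1 h'')))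
  have hψ20 : ∀ c i j x, x ∉ S → pd i (pd j (ψ c)) x = 0 := fun c i j x hx =>
    pd_eq_zero_off (hψp1 c j) hSc (fun x hx => pd_eq_zero_off (hψ1 c) hSc (h0S c) j hx) i hx
  have hZ20 : ∀ c j k x, x ∉ S → pd k (Zc w ψ c j) x = 0 := fun c j k x hx =>
    pd_eq_zero_off (hZs c j) hSc (hZ0S c j) k hx
  have hint : ∀ {Φ : (E →L[ℝ] E) × E → ℝ}, Continuous Φ → (∀ B y, xc b y ∉ S → Φ (B, y) = 0) →
      Integrable (fun y => Φ (P y, y)) ν := fun hΦ h' =>
    hint hΦ fun B y hy => h' B y fun h'' => hy (hSK h'')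
  -- the terms
  set F1 : Fin n → (E →L[ℝ] E) × E → ℝ := fun c p => va b w c p.2 *
    ∑ i, ∑ j, pd i (pd j (ψ c)) (xc b p.2) * ⟪ev b i, p.1 (ev b j)⟫ with hF1
  set F2 : Fin n → (E →L[ℝ] E) × E → ℝ := fun c p => ψ c (xc b p.2) *
    ∑ i, ∑ j, pd i (pd j (w c)) (xc b p.2) * ⟪ev b i, p.1 (ev b j)⟫ with hF2
  set F3 : Fin n → Fin m → (E →L[ℝ] E) × E → ℝ := fun c j p =>
    Zc w ψ c j (xc b p.2) * ⟪nv b (dm w (xc b p.2)) c, p.1 (ev b j)⟫ +
      va b w c p.2 * ∑ k, pd k (Zc w ψ c j) (xc b p.2) * ⟪ev b k, p.1 (ev b j)⟫ with hF3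
  set F0 : (E →L[ℝ] E) × E → ℝ := fun p => ∑ c, va b w c p.2 * LLop w ψ c (xc b p.2) with hF0
  have c1 : ∀ c, Continuous (F1 c) := fun c => ((hvac c).comp continuous_snd).mul
    (continuous_finset_sum _ fun i _ => continuous_finset_sum _ fun j _ =>
      (hcx (hpψ2 c i j)).mul (continuous_const.inner (hfst _)))
  have c2 : ∀ c, Continuous (F2 c) := fun c => (hcx (hψ c).continuous).mul
    (continuous_finset_sum _ fun i _ => continuous_finset_sum _ fun j _ =>
      (hcx (hpw2 c i j)).mul (continuous_const.inner (hfst _)))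
  have c3 : ∀ c j, Continuous (F3 c j) := fun c j => ((hcx (hZs c j).continuous).mul
    (((hnvc c).comp continuous_snd).inner (hfst _))).add (((hvac c).comp continuous_snd).mul
      (continuous_finset_sum _ fun k _ => (hcx (hpZ c j k)).mul (continuous_const.inner (hfst _))))
  have cL : ∀ c, Continuous (LLop w ψ c) := by
    intro c
    unfold LLop
    refine (continuous_finset_sum _ fun i _ => continuous_finset_sum _ fun j _ =>
      (hgi i j).mul (hpψ2 c i j)).add (continuous_const.mul ?_)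
    exact continuous_finset_sum _ fun k _ => continuous_finset_sum _ fun j _ =>
      (hgi k j).mul (hpZ c j k)
  have c0 : Continuous F0 := continuous_finset_sum _ fun c _ =>
    ((hvac c).comp continuous_snd).mul (hcx (cL c))
  have z1 : ∀ c B y, xc b y ∉ S → F1 c (B, y) = 0 := by
    intro c B y hy
    simp [hF1, hψ20 _ _ _ _ hy]
  have z2 : ∀ c B y, xc b y ∉ S → F2 c (B, y) = 0 := by
    intro c B y hy
    simp [hF2, h0S _ _ hy]
  have z3 : ∀ c j B y, xc b y ∉ S → F3 c j (B, y) = 0 := by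
    intro c j B y hy
    simp [hF3, hZ0S _ _ _ hy, hZ20 _ _ _ _ hy]
  have z0 : ∀ B y, xc b y ∉ S → F0 (B, y) = 0 := by
    intro B y hy
    simp [hF0, LLop, hψ20 _ _ _ _ hy, hZ20 _ _ _ _ hy]
  have i0 := hint c0 z0
  have i12 : ∀ c, ∫ y, (F1 c (P y, y) + F2 c (P y, y)) ∂ν = 0 := by
    intro c
    rw [integral_add (hint (c1 c) (z1 c)) (hint (c2 c) (z2 c))]
    exact height_second hC hb hw2 (hψ c) hK hKG (h0 c) c
  have i3 : ∀ c j, ∫ y, F3 c j (P y, y) ∂ν = 0 := fun c j =>
    height_first hC hb hw1 (hZs c j) hK hKG (hZ0 c j) c j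
  have hsum12 : ∫ y, ∑ c, (F1 c (P y, y) + F2 c (P y, y)) ∂ν = 0 := by
    have h1 : ∀ c, Integrable (fun y => F1 c (P y, y) + F2 c (P y, y)) ν :=
      fun c => (hint (c1 c) (z1 c)).add (hint (c2 c) (z2 c))
    rw [integral_finset_sum _ fun c _ => h1 c]
    exact Finset.sum_eq_zero fun c _ => i12 c
  have hsum3 : ∫ y, ∑ c, ∑ j, F3 c j (P y, y) ∂ν = 0 := by
    rw [integral_finset_sum _ fun c _ => integrable_finset_sum _ fun j _ => hint (c3 c j) (z3 c j)]
    refine Finset.sum_eq_zero fun c _ => ?_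
    rw [integral_finset_sum _ fun j _ => hint (c3 c j) (z3 c j)]
    exact Finset.sum_eq_zero fun j _ => i3 c j
  have hJ : ∫ y, F0 (P y, y) ∂ν = ∫ y, (F0 (P y, y) - (∑ c, (F1 c (P y, y) + F2 c (P y, y))) -
      2 * ∑ c, ∑ j, F3 c j (P y, y)) ∂ν := by
    have j1 : Integrable (fun y => ∑ c, (F1 c (P y, y) + F2 c (P y, y))) ν :=
      integrable_finset_sum _ fun c _ => (hint (c1 c) (z1 c)).add (hint (c2 c) (z2 c))
    have j2 : Integrable (fun y => ∑ c, ∑ j, F3 c j (P y, y)) ν :=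
      integrable_finset_sum _ fun c _ => integrable_finset_sum _ fun j _ => hint (c3 c j) (z3 c j)
    have j3 : Integrable (fun y => F0 (P y, y) - ∑ c, (F1 c (P y, y) + F2 c (P y, y))) ν := i0.sub j1
    rw [integral_sub j3 (j2.const_mul 2), integral_sub i0 j1, integral_const_mul, hsum12,
      hsum3]
    ring
  have hgoal : ∫ y, ∑ c, va b w c y * LLop w ψ c (xc b y) ∂ν = ∫ y, F0 (P y, y) ∂ν := rfl
  rw [hgoal, hJ, ← Real.norm_eq_abs]
  have hmeasK : MeasurableSet {y | xc b y ∈ S} := (xc b).continuous.measurable hSm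
  have hec : Continuous fun p : (E →L[ℝ] E) × E => eden b w lam p.1 p.2 := by
    unfold eden
    refine hewc.add ((continuous_finset_sum _ fun c _ => ((hvac c).comp continuous_snd).abs).mul ?_)
    exact (continuous_const.mul (Real.continuous_sqrt.comp hewc)).add hewc
  have hon : IntegrableOn (fun y => eden b w lam (P y) y) {y | xc b y ∈ S} ν := by
    have := integrableOn_gen hC hec hK' hKG'
    refine this.mono_set fun y hy => (hKT y).1 (hSK hy)
  have hbd : ∀ᵐ y ∂ν, ‖F0 (P y, y) - (∑ c, (F1 c (P y, y) + F2 c (P y, y))) -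
      2 * ∑ c, ∑ j, F3 c j (P y, y)‖ ≤
      ({y | xc b y ∈ S}.indicator fun y => M * (Cw m n * eden b w lam (P y) y)) y := by
    filter_upwards [hC.proj] with y hy
    by_cases hyK : xc b y ∈ S
    · rw [indicator_of_mem (by exact hyK), Real.norm_eq_abs]
      obtain ⟨S, hS, hPS⟩ := hy
      have h1 := pointwise b (dm w (xc b y)) hS (lam := lam) (M := M) (fun a i => hd _ hyK a i)
        (fun a i j => pd i (pd j (w a)) (xc b y)) (fun a i j => pd_comm (hw2 a) i j _)
        (fun a i j => hH _ hyK a i j) (fun a => hmse _ hyK a) (fun c => va b w c y)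
        (fun a => ψ a (xc b y)) (fun a i j => pd i (pd j (ψ a)) (xc b y))
        (fun c j => Zc w ψ c j (xc b y)) (fun c j k => pd k (Zc w ψ c j) (xc b y))
        (fun c j => rfl) hM (fun a => hψ0 _ hyK a) (fun a i j => hψ2 _ hyK a i j)
        (fun c j k => hZ _ hyK c j k)
      rw [← hPS] at h1
      have h2 : ∑ c, (F1 c (P y, y) + F2 c (P y, y)) = ∑ c, F1 c (P y, y) + ∑ c, F2 c (P y, y) :=
        Finset.sum_add_distrib
      rw [h2]
      refine (le_of_eq ?_).trans (h1.trans ?_)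
      · rfl
      · refine mul_le_mul_of_nonneg_left ?_ hM
        unfold eden Cw
        have he := ew_nonneg b (dm w (xc b y)) (P y)
        have hW : 0 ≤ ∑ c, |va b w c y| := Finset.sum_nonneg fun _ _ => abs_nonneg _
        have hs := Real.sqrt_nonneg (ew b (dm w (xc b y)) (P y))
        set e := ew b (dm w (xc b y)) (P y)
        set W := ∑ c, |va b w c y|
        by_cases hm : m = 0
        · subst hm
          simp
        by_cases hn : n = 0
        · subst hn
          simp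
        have hlam : 0 ≤ lam := (abs_nonneg _).trans (hd _ hyK ⟨0, Nat.pos_of_ne_zero hn⟩
          ⟨0, Nat.pos_of_ne_zero hm⟩)
        have hm0 : (0 : ℝ) ≤ m := Nat.cast_nonneg m
        have hn0 : (0 : ℝ) ≤ n := Nat.cast_nonneg n
        have p1 : 0 ≤ W * (lam * √e) := by positivity
        have p2 : 0 ≤ W * e := by positivity
        have p3 : 0 ≤ (m : ℝ) ^ 2 * n := by positivity
        have p4 : 0 ≤ (m : ℝ) ^ 3 * n := by positivity
        have p5 : 0 ≤ (m : ℝ) ^ 2 * n ^ 2 := by positivity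
        nlinarith [mul_nonneg p3 p1, mul_nonneg p3 p2, mul_nonneg p4 p1, mul_nonneg p4 p2,
          mul_nonneg p5 p1, mul_nonneg p5 p2, mul_nonneg p3 he, mul_nonneg p4 he]
    · rw [indicator_of_notMem (by exact hyK)]
      simp [z0 _ _ hyK, z1 _ _ _ hyK, z2 _ _ _ hyK, z3 _ _ _ _ hyK]
  refine (norm_integral_le_of_norm_le ?_ hbd).trans ?_
  · rw [integrable_indicator_iff hmeasK]
    exact (hon.const_mul _).const_mul _
  · rw [integral_indicator hmeasK, integral_const_mul, integral_const_mul]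

end

end Vale.Agent.P214.AVG
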