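import Vale.Agent.P214.AVG.Main
import Vale.Agent.P214.AVG.Bounds
import Vale.Agent.P214.WIN.Props

/-!
# P214, block AVG: the statement `WIN.AvgStmt`
-/

open Set Filter Topology MeasureTheory Metric
open scoped RealInnerProductSpace ContDiff

set_option linter.all false

namespace Vale.Agent.P214.AVG

open Vale.Agent.P214.FV
open Vale.Agent.P214.REF (pd bs)

variable {E : Type*} [NormedAddCommGroup E] [InnerProductSpace ℝ E] [FiniteDimensional ℝ E]
variable {m n : ℕ} {T : Submodule ℝ E}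

noncomputable section

/-! ### the basis of a frame -/

lemma frame_orthonormal (F : WIN.Frame m n T) :
    Orthonormal ℝ (Sum.elim (fun i => ((F.bT i : T) : E)) (fun a => ((F.bN a : Tᗮ) : E))) := by
  rw [orthonormal_iff_ite]
  rintro (i | a) (j | c)
  · have h := orthonormal_iff_ite.1 F.bT.orthonormal i j
    simpa using h
  · simp only [Sum.elim_inl, Sum.elim_inr, reduceCtorEq, if_false]
    exact Submodule.inner_right_of_mem_orthogonal (F.bT i).2 (F.bN c).2
  · simp only [Sum.elim_inl, Sum.elim_inr, reduceCtorEq, if_false]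
    exact Submodule.inner_left_of_mem_orthogonal (F.bT j).2 (F.bN a).2
  · have h := orthonormal_iff_ite.1 F.bN.orthonormal a c
    simpa using h

lemma frame_span (F : WIN.Frame m n T) : ⊤ ≤ Submodule.span ℝ
    (range (Sum.elim (fun i => ((F.bT i : T) : E)) (fun a => ((F.bN a : Tᗮ) : E)))) := by
  intro y _
  have h1 : y = ((T.orthogonalProjectionOnto y : T) : E) + ((Tᗮ.orthogonalProjectionOnto y : Tᗮ) : E) := by
    have := Submodule.starProjection_add_starProjection_orthogonal (K := T) y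
    exact this.symm
  rw [h1]
  refine Submodule.add_mem _ ?_ ?_
  · have h2 := F.bT.sum_repr (T.orthogonalProjectionOnto y)
    rw [← h2, Submodule.coe_sum]
    refine Submodule.sum_mem _ fun i _ => ?_
    rw [Submodule.coe_smul]
    exact Submodule.smul_mem _ _ (Submodule.subset_span ⟨Sum.inl i, rfl⟩)
  · have h2 := F.bN.sum_repr (Tᗮ.orthogonalProjectionOnto y)
    rw [← h2, Submodule.coe_sum]
    refine Submodule.sum_mem _ fun i _ => ?_
    rw [Submodule.coe_smul]
    exact Submodule.smul_mem _ _ (Submodule.subset_span ⟨Sum.inr i, rfl⟩)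

/-- the orthonormal basis of a frame -/
def fb (F : WIN.Frame m n T) : OrthonormalBasis (Fin m ⊕ Fin n) ℝ E :=
  OrthonormalBasis.mk (frame_orthonormal F) (frame_span F)

lemma ev_fb (F : WIN.Frame m n T) (i : Fin m) : ev (fb F) i = ((F.bT i : T) : E) := by
  unfold ev fb
  rw [OrthonormalBasis.coe_mk]
  rfl

lemma cv_fb (F : WIN.Frame m n T) (a : Fin n) : cv (fb F) a = ((F.bN a : Tᗮ) : E) := by
  unfold cv fb
  rw [OrthonormalBasis.coe_mk]
  rfl

lemma adapted_fb (F : WIN.Frame m n T) : Adapted T (fb F) where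
  hT i := by rw [ev_fb]; exact (F.bT i).2
  hN a := by rw [cv_fb]; exact (F.bN a).2

lemma xc_fb (F : WIN.Frame m n T) (y : E) : xc (fb F) y = F.xc y := by
  ext i
  rw [xc_apply, ev_fb]
  unfold WIN.Frame.xc
  rw [OrthonormalBasis.repr_apply_apply, Submodule.coe_inner]
  have h1 : y = ((T.orthogonalProjectionOnto y : T) : E) + ((Tᗮ.orthogonalProjectionOnto y : Tᗮ) : E) :=
    (Submodule.starProjection_add_starProjection_orthogonal (K := T) y).symm
  conv_lhs => rw [h1]
  rw [inner_add_right, Submodule.inner_right_of_mem_orthogonal (F.bT i).2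
    (Tᗮ.orthogonalProjectionOnto y).2, add_zero]

lemma va_fb (F : WIN.Frame m n T) (u : Fin n → REF.E m → ℝ) (a : Fin n) (y : E) :
    va (fb F) u a y = F.ht u a y := by
  unfold va WIN.Frame.ht
  rw [cv_fb, xc_fb]

lemma norm_xc (F : WIN.Frame m n T) (y : E) : ‖F.xc y‖ = ‖T.starProjection y‖ := by
  unfold WIN.Frame.xc
  rw [LinearIsometryEquiv.norm_map]
  rfl

/-- the relative height in components -/
lemma rel_eq (F : WIN.Frame m n T) (u : Fin n → REF.E m → ℝ) (y : E) :
    KMS.rel T (F.lift u) y = ∑ a, va (fb F) u a y • cv (fb F) a := by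
  unfold KMS.rel WIN.Frame.lift
  have h1 : co T y = ∑ a, ⟪cv (fb F) a, y⟫ • cv (fb F) a := by
    rw [co_apply, (adapted_fb F).proj, lf_apply]
    conv_lhs => lhs; rw [← (fb F).sum_repr' y, Fintype.sum_sum_type]
    simp only [xc_apply]
    unfold ev cv
    abel
  rw [h1, ← Finset.sum_sub_distrib]
  refine Finset.sum_congr rfl fun a _ => ?_
  unfold va
  rw [sub_smul, cv_fb, xc_fb]

lemma norm_rel_sq (F : WIN.Frame m n T) (u : Fin n → REF.E m → ℝ) (y : E) :
    ‖KMS.rel T (F.lift u) y‖ ^ 2 = ∑ a, va (fb F) u a y ^ 2 := by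
  rw [rel_eq, ← real_inner_self_eq_norm_sq, sum_inner]
  refine Finset.sum_congr rfl fun a _ => ?_
  rw [inner_sum]
  simp only [real_inner_smul_left, inner_smul_right, inner_cv_cv]
  rw [Finset.sum_eq_single a]
  · simp [sq]
  · intro c _ hc
    simp [Matrix.one_apply_ne hc.symm]
  · intro h
    exact absurd (Finset.mem_univ a) h

lemma sum_abs_va_le (F : WIN.Frame m n T) (u : Fin n → REF.E m → ℝ) (y : E) :
    ∑ a, |va (fb F) u a y| ≤ n * ‖KMS.rel T (F.lift u) y‖ := by
  have h : ∀ a, |va (fb F) u a y| ≤ ‖KMS.rel T (F.lift u) y‖ := by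
    intro a
    refine abs_le_of_sq_le_sq ?_ (norm_nonneg _)
    rw [norm_rel_sq]
    exact Finset.single_le_sum (f := fun a => va (fb F) u a y ^ 2) (fun _ _ => by positivity)
      (Finset.mem_univ a)
  calc ∑ a, |va (fb F) u a y| ≤ ∑ _a : Fin n, ‖KMS.rel T (F.lift u) y‖ := Finset.sum_le_sum fun a _ => h a
    _ = _ := by simp

lemma fderiv_rel (F : WIN.Frame m n T) {u : Fin n → REF.E m → ℝ} (hu : ∀ a, ContDiff ℝ 1 (u a))
    (y v : E) : fderiv ℝ (KMS.rel T (F.lift u)) y v =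
      ∑ a, ⟪nv (fb F) (dm u (xc (fb F) y)) a, v⟫ • cv (fb F) a := by
  have h1 : KMS.rel T (F.lift u) = fun y => ∑ a, va (fb F) u a y • cv (fb F) a :=
    funext (rel_eq F u)
  have h2 : ∀ a, HasFDerivAt (fun y => va (fb F) u a y • cv (fb F) a)
      ((fderiv ℝ (va (fb F) u a) y).smulRight (cv (fb F) a)) y := fun a =>
    (((contDiff_va (fb F) hu a).differentiable (by norm_num)) y).hasFDerivAt.smul_const _
  rw [h1, (HasFDerivAt.fun_sum fun a _ => h2 a).fderiv, ContinuousLinearMap.sum_apply]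
  refine Finset.sum_congr rfl fun a _ => ?_
  rw [ContinuousLinearMap.smulRight_apply, fderiv_va (fb F) (fun a => (hu a).differentiable (by norm_num))]

/-- the energy density -/
lemma gsq_eq (F : WIN.Frame m n T) {u : Fin n → REF.E m → ℝ} (hu : ∀ a, ContDiff ℝ 1 (u a))
    (S : Submodule ℝ E) (y : E) : gsq (KMS.rel T (F.lift u)) S.starProjection y =
      ew (fb F) (dm u (xc (fb F) y)) S.starProjection := by
  unfold gsq ew
  set N := fun a => nv (fb F) (dm u (xc (fb F) y)) a with hN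
  have h1 : ∀ v v' : E, ⟪fderiv ℝ (KMS.rel T (F.lift u)) y v, fderiv ℝ (KMS.rel T (F.lift u)) y v'⟫ =
      ∑ a, ⟪N a, v⟫ * ⟪N a, v'⟫ := by
    intro v v'
    rw [fderiv_rel F hu, fderiv_rel F hu, sum_inner]
    refine Finset.sum_congr rfl fun a _ => ?_
    rw [inner_sum]
    simp only [real_inner_smul_left, inner_smul_right, inner_cv_cv]
    rw [Finset.sum_eq_single a]
    · simp
      ring
    · intro c _ hc
      simp [Matrix.one_apply_ne hc.symm]
    · intro h
      exact absurd (Finset.mem_univ a) h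
  simp only [h1]
  rw [Finset.sum_comm]
  refine Finset.sum_congr rfl fun a _ => ?_
  have h2 : ∀ k, ⟪N a, S.starProjection (stdOrthonormalBasis ℝ E k)⟫ =
      ⟪S.starProjection (N a), stdOrthonormalBasis ℝ E k⟫ := fun k => (inner_star _ _ _).symm
  simp only [h2]
  have h3 := (stdOrthonormalBasis ℝ E).sum_inner_mul_inner (S.starProjection (N a)) (N a)
  have h4 : ∀ k, ⟪stdOrthonormalBasis ℝ E k, N a⟫ = ⟪N a, stdOrthonormalBasis ℝ E k⟫ :=
    fun k => real_inner_comm _ _
  simp only [h4] at h3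
  rw [h3, ← real_inner_self_eq_norm_sq]
  show ⟪S.starProjection (N a), N a⟫ = ⟪S.starProjection (N a), S.starProjection (N a)⟫
  rw [← inner_star S (S.starProjection (N a)) (N a), star_self]

/-! ### bounds of partial derivatives by iterated derivatives -/

omit [FiniteDimensional ℝ E] in
lemma abs_le_iter {f : REF.E m → ℝ} {x : REF.E m} {C : ℝ} (h : ‖iteratedFDeriv ℝ 0 f x‖ ≤ C) :
    |f x| ≤ C := by
  rwa [norm_iteratedFDeriv_zero, Real.norm_eq_abs] at h

omit [FiniteDimensional ℝ E] in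
lemma abs_pd_le_iter {f : REF.E m → ℝ} (hf : ContDiff ℝ ∞ f) {x : REF.E m} {C : ℝ}
    (h : ‖iteratedFDeriv ℝ 1 f x‖ ≤ C) (i : Fin m) : |pd i f x| ≤ C :=
  abs_le_iter ((REF.norm_iteratedFDeriv_pd hf i 0 x).trans h)

omit [FiniteDimensional ℝ E] in
lemma abs_pd_pd_le_iter {f : REF.E m → ℝ} (hf : ContDiff ℝ ∞ f) {x : REF.E m} {C : ℝ}
    (h : ‖iteratedFDeriv ℝ 2 f x‖ ≤ C) (i j : Fin m) : |pd i (pd j f) x| ≤ C :=
  abs_pd_le_iter (REF.contDiff_pd hf j) ((REF.norm_iteratedFDeriv_pd hf j 1 x).trans h) i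

omit [FiniteDimensional ℝ E] in
lemma abs_pd_pd_pd_le_iter {f : REF.E m → ℝ} (hf : ContDiff ℝ ∞ f) {x : REF.E m} {C : ℝ}
    (h : ‖iteratedFDeriv ℝ 3 f x‖ ≤ C) (i j k : Fin m) : |pd i (pd j (pd k f)) x| ≤ C :=
  abs_pd_pd_le_iter (REF.contDiff_pd hf k) ((REF.norm_iteratedFDeriv_pd hf k 2 x).trans h) i j

/-! ### the adjoint operator -/

omit [FiniteDimensional ℝ E] in
lemma pd_ev_zero {f : REF.E m → ℝ} {x : REF.E m} (h : f =ᶠ[𝓝 x] fun _ => (0 : ℝ)) (i : Fin m) :
    pd i f =ᶠ[𝓝 x] fun _ => (0 : ℝ) := by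
  filter_upwards [Filter.EventuallyEq.fderiv (𝕜 := ℝ) h] with y hy
  unfold pd
  rw [hy]
  simp

omit [FiniteDimensional ℝ E] in
lemma Ltw_eq {u φ : Fin n → REF.E m → ℝ} {r r' : ℝ} (hu : ∀ a, ContDiff ℝ ∞ (u a))
    (hex : ∀ a x, ‖x‖ < r → REF.Mop u a x = 0) (hr : r' < r) (hφ : ∀ a, ContDiff ℝ ∞ (φ a))
    (hs : ∀ a x, r' ≤ ‖x‖ → φ a x = 0) (c : Fin n) (x : REF.E m) :
    WIN.Ltw u φ c x = sg u x * LLop u (fun a x => sg u x * φ a x) c x := by
  have hu2 : ∀ a, ContDiff ℝ 2 (u a) := fun a => by exact_mod_cast contDiff_infty.1 (hu a) 2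
  by_cases hx : ‖x‖ < r
  · refine adj_identity (U := ball 0 r) isOpen_ball hu (fun x hx a => mse_of_Mop (hex a x ?_)) hφ
      (by simpa using hx) c (fun a k x => WIN.bco u a c k x) fun x hx a k => ?_
    · simpa using hx
    · exact bco_poly hu2 a c k (mse_of_Mop (hex a x (by simpa using hx)))
  · have hx' : r' < ‖x‖ := lt_of_lt_of_le hr (not_lt.1 hx)
    have h0 : ∀ a, φ a =ᶠ[𝓝 x] fun _ => (0 : ℝ) := by
      intro a
      have h2 : {y : REF.E m | r' < ‖y‖} ∈ 𝓝 x :=
        (isOpen_lt continuous_const continuous_norm).mem_nhds hx'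
      filter_upwards [h2] with y hy
      exact hs a y (le_of_lt hy)
    have h1 : ∀ i j, (fun x => WIN.Aco u i j x * φ c x) =ᶠ[𝓝 x] fun _ => (0 : ℝ) := by
      intro i j
      filter_upwards [h0 c] with y hy
      rw [hy, mul_zero]
    have h2 : ∀ a k, (fun x => WIN.bco u a c k x * φ a x) =ᶠ[𝓝 x] fun _ => (0 : ℝ) := by
      intro a k
      filter_upwards [h0 a] with y hy
      rw [hy, mul_zero]
    have h3 : (fun x => sg u x * φ c x) =ᶠ[𝓝 x] fun _ => (0 : ℝ) := by
      filter_upwards [h0 c] with y hy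
      rw [hy, mul_zero]
    have h4 : ∀ j, Zc u (fun a x => sg u x * φ a x) c j =ᶠ[𝓝 x] fun _ => (0 : ℝ) := by
      intro j
      have h5 : ∀ᶠ y in 𝓝 x, ∀ a, φ a y = 0 := eventually_all.2 fun a => h0 a
      filter_upwards [h5] with y hy
      unfold Zc
      simp [hy]
    unfold WIN.Ltw LLop
    have e1 : ∀ i j, pd i (pd j fun x => WIN.Aco u i j x * φ c x) x = 0 := fun i j =>
      (pd_ev_zero (pd_ev_zero (h1 i j) j) i).eq_of_nhds
    have e2 : ∀ a k, pd k (fun x => WIN.bco u a c k x * φ a x) x = 0 := fun a k =>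
      (pd_ev_zero (h2 a k) k).eq_of_nhds
    have e3 : ∀ i j, pd i (pd j fun x => sg u x * φ c x) x = 0 := fun i j =>
      (pd_ev_zero (pd_ev_zero h3 j) i).eq_of_nhds
    have e4 : ∀ k j, pd k (Zc u (fun a x => sg u x * φ a x) c j) x = 0 := fun k j =>
      (pd_ev_zero (h4 j) k).eq_of_nhds
    simp [e1, e2, e3, e4]

/-! ### the statement -/

/-- crude bound of the energy density -/
lemma ew_le (b : OrthonormalBasis (Fin m ⊕ Fin n) ℝ E) {d : Matrix (Fin n) (Fin m) ℝ}
    (hd : ∀ a i, |d a i| ≤ 1) (S : Submodule ℝ E) :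
    √(ew b d S.starProjection) ≤ n * (1 + m) := by
  have h1 : ∀ a, ‖S.starProjection (nv b d a)‖ ≤ 1 + m := by
    intro a
    refine (norm_star_le _ _).trans ?_
    unfold nv
    refine (norm_sub_le _ _).trans ?_
    rw [norm_cv]
    have h2 : ‖∑ i, d a i • ev b i‖ ≤ m := by
      refine (norm_sum_le _ _).trans ?_
      calc ∑ i, ‖d a i • ev b i‖ ≤ ∑ _i : Fin m, (1 : ℝ) := by
            refine Finset.sum_le_sum fun i _ => ?_
            rw [norm_smul, norm_ev, mul_one, Real.norm_eq_abs]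
            exact hd a i
        _ = m := by simp
    linarith
  have h3 : ew b d S.starProjection ≤ n * (1 + m) ^ 2 := by
    unfold ew
    calc ∑ a, ‖S.starProjection (nv b d a)‖ ^ 2 ≤ ∑ _a : Fin n, (1 + (m : ℝ)) ^ 2 := by
          refine Finset.sum_le_sum fun a _ => ?_
          have := h1 a
          gcongr
      _ = _ := by simp
  have h4 : (n : ℝ) ≤ n ^ 2 := by
    have : n ≤ n ^ 2 := Nat.le_self_pow (by norm_num) n
    exact_mod_cast this
  have h5 : (n : ℝ) * (1 + m) ^ 2 ≤ (n * (1 + m)) ^ 2 := by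
    rw [mul_pow]
    gcongr
  refine (Real.sqrt_le_sqrt (h3.trans h5)).trans ?_
  rw [Real.sqrt_sq (by positivity)]

/-- the constant of the weak equation in the final form -/
def Cf (m n : ℕ) : ℝ :=
  4 * S1 m n * (1 + n * (m * (2 + m * (1 + 2 * n * m)))) * (Cw m n * (1 + n * (1 + n * (1 + m))))

lemma one_le_S1 (m n : ℕ) : 1 ≤ S1 m n := (one_le_S0 m n).trans (S0_le_S1 m n)

lemma Cw_nonneg (m n : ℕ) : 0 ≤ Cw m n := by
  unfold Cw
  positivity

lemma Cf_nonneg (m n : ℕ) : 0 ≤ Cf m n := by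
  unfold Cf
  have h1 := one_le_S1 m n
  have h2 := Cw_nonneg m n
  positivity

variable [MeasurableSpace E] [BorelSpace E]

/-- **[AVG]** -/
theorem avgStmt (E : Type*) [NormedAddCommGroup E] [InnerProductSpace ℝ E] [FiniteDimensional ℝ E]
    [MeasurableSpace E] [BorelSpace E] (m n : ℕ) : WIN.AvgStmt E m n := by
  refine ⟨1, Cf m n, one_pos, Cf_nonneg m n, ?_⟩
  intro T F u r r' h ν P hu hr' hr hC φ M hφ
  have hu1 : ∀ a, ContDiff ℝ 1 (u a) := fun a => by exact_mod_cast contDiff_infty.1 (hu.smooth a) 1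
  have hu2 : ∀ a, ContDiff ℝ 2 (u a) := fun a => by exact_mod_cast contDiff_infty.1 (hu.smooth a) 2
  have hu3 : ∀ a, ContDiff ℝ 3 (u a) := fun a => by exact_mod_cast contDiff_infty.1 (hu.smooth a) 3
  rcases Nat.eq_zero_or_pos n with hn | hn
  · subst hn
    have e2 : KMS.rel T (F.lift u) = fun _ => 0 := funext fun y => by
      rw [rel_eq]
      simp
    have e3 : ∀ B y, gsq (KMS.rel T (F.lift u)) B y = 0 := by
      intro B y
      rw [e2]
      simp [gsq]
    simp [e3]
  have hM : 0 ≤ M := (norm_nonneg _).trans (hφ.bd ⟨0, hn⟩ 0 (Nat.zero_le _) 0)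
  set ψ : Fin n → REF.E m → ℝ := fun a x => sg u x * φ a x with hψ
  have hφ2 : ∀ a, ContDiff ℝ 2 (φ a) := fun a => by exact_mod_cast contDiff_infty.1 (hφ.smooth a) 2
  have hψ2 : ∀ a, ContDiff ℝ 2 (ψ a) := fun a => (contDiff_sg (k := 2) hu3).mul (hφ2 a)
  have b1 : ∀ x a i, |pd i (u a) x| ≤ 1 := fun x a i =>
    abs_pd_le_iter (hu.smooth a) (hu.small a 1 (by unfold WIN.sW; omega) x) i
  have b2 : ∀ x a i j, |pd i (pd j (u a)) x| ≤ 1 := fun x a i j =>
    abs_pd_pd_le_iter (hu.smooth a) (hu.small a 2 (by unfold WIN.sW; omega) x) i j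
  have b3 : ∀ x a i j k, |pd i (pd j (pd k (u a))) x| ≤ 1 := fun x a i j k =>
    abs_pd_pd_pd_le_iter (hu.smooth a) (hu.small a 3 (by unfold WIN.sW; omega) x) i j k
  have hsb : ∀ x a, |ψ a x| ≤ 4 * S1 m n * M ∧ (∀ k, |pd k (ψ a) x| ≤ 4 * S1 m n * M) ∧
      ∀ j k, |pd j (pd k (ψ a)) x| ≤ 4 * S1 m n * M := fun x a =>
    sg_mul_bounds hu3 (b1 x) (b2 x) (b3 x) (hφ2 a) (abs_le_iter (hφ.bd a 0 (by norm_num) x))
      (fun k => abs_pd_le_iter (hφ.smooth a) (hφ.bd a 1 (by norm_num) x) k)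
      (fun j k => abs_pd_pd_le_iter (hφ.smooth a) (hφ.bd a 2 (by norm_num) x) j k)
  have hL : ∀ y, ∑ b, F.ht u b y / √(REF.gm u (F.xc y)).det * WIN.Ltw u φ b (F.xc y) =
      ∑ b, va (fb F) u b y * LLop u ψ b (xc (fb F) y) := by
    intro y
    refine Finset.sum_congr rfl fun c _ => ?_
    rw [Ltw_eq hu.smooth hu.exact hr' hφ.smooth hφ.supp, va_fb, xc_fb, gm_eq]
    have h1 := sg_pos u (F.xc y)
    have h2 : √(gmat (dm u (F.xc y))).det = sg u (F.xc y) := rfl
    rw [h2]
    field_simp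
    rfl
  simp only [hL]
  have hSc : (ball (0 : REF.E m) r')ᶜ ⊆ closure (interior (ball (0 : REF.E m) r')ᶜ) := by
    by_cases hr0 : r' ≤ 0
    · rw [ball_eq_empty.2 hr0]
      simp
    · rw [interior_compl, closure_ball _ (by linarith : r' ≠ 0), closure_compl,
        interior_closedBall _ (by linarith : r' ≠ 0)]
  have hset : {y | xc (fb F) y ∈ ball (0 : REF.E m) r'} = Skel.cylSet T 0 r' := by
    ext y
    unfold Skel.cylSet
    simp only [mem_setOf_eq, mem_ball_zero_iff]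
    rw [xc_fb, norm_xc]
  have hlf : ∀ x, ‖lf (fb F) x‖ = ‖x‖ := by
    intro x
    have h2 : xc (fb F) (lf (fb F) x) = x := by
      ext i
      rw [xc_apply, lf_apply, inner_sum]
      simp [inner_smul_right, inner_ev_ev, Matrix.one_apply]
    have h3 : T.starProjection (lf (fb F) x) = lf (fb F) x := by
      rw [(adapted_fb F).proj, h2]
    rw [← h3, ← norm_xc F, ← xc_fb, h2]
  set M1 : ℝ := 4 * S1 m n * (1 + n * (m * (2 + m * (1 + 2 * n * m)))) * M with hM1
  have hS1 := one_le_S1 m n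
  have hk : (0 : ℝ) ≤ n * (m * (2 + m * (1 + 2 * n * m))) := by positivity
  have hSM : 0 ≤ 4 * S1 m n * M := by positivity
  have hM1' : 4 * S1 m n * M ≤ M1 := by
    rw [hM1]
    nlinarith
  have hw := weak_eq hC (adapted_fb F) hu3 hψ2 (K := closedBall 0 r') (S := ball 0 r')
    (isCompact_closedBall _ _) (fun x hx => by
      rw [mem_ball_zero_iff, hlf]
      exact (mem_closedBall_zero_iff.1 hx).trans_lt hr') measurableSet_ball ball_subset_closedBall hSc
    (fun a x hx => by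
      have : r' ≤ ‖x‖ := by simpa using hx
      rw [hψ]
      simp only
      rw [hφ.supp a x this, mul_zero]) (lam := 1) (M := M1) (by positivity) (fun x _ a i => b1 x a i)
    (fun x _ a i j => b2 x a i j)
    (fun x hx a => mse_of_Mop (hu.exact a x ((mem_ball_zero_iff.1 hx).trans hr')))
    (fun x _ a => (hsb x a).1.trans hM1') (fun x _ a i j => ((hsb x a).2.2 i j).trans hM1')
    (fun x _ c j k => by
      refine (abs_pd_Zc_le hu3 (b1 x) (b2 x) (b3 x) (fun a => (hψ2 a).of_le (by norm_num))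
        (fun a => (hsb x a).1) (fun a k => (hsb x a).2.1 k) c j k).trans ?_
      rw [hM1]
      nlinarith)
  refine hw.trans ?_
  rw [hset]
  -- comparison of the error densities
  have hK : IsCompact (closedBall (0 : E) r') := isCompact_closedBall _ _
  have hKG : closedBall (0 : E) r' ⊆ ball 0 r := closedBall_subset_ball hr'
  have hsub : Skel.cylSet T 0 r' ⊆ {y | T.starProjection y ∈ closedBall (0 : E) r'} := fun y hy =>
    ball_subset_closedBall hy
  have hrel : ContDiff ℝ 1 (KMS.rel T (F.lift u)) := by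
    have h1 : KMS.rel T (F.lift u) = fun y => ∑ a, va (fb F) u a y • cv (fb F) a :=
      funext (rel_eq F u)
    rw [h1]
    exact ContDiff.sum fun a _ => (contDiff_va (fb F) hu1 a).smul contDiff_const
  have c1 : Continuous fun p : (E →L[ℝ] E) × E => gsq (KMS.rel T (F.lift u)) p.1 p.2 +
      ‖KMS.rel T (F.lift u) p.2‖ * √(gsq (KMS.rel T (F.lift u)) p.1 p.2) :=
    (continuous_gsq hrel).add (((hrel.continuous.comp continuous_snd).norm).mul
      (continuous_gsq hrel).sqrt)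
  have i1 : Integrable (fun y => gsq (KMS.rel T (F.lift u)) (P y) y +
      ‖KMS.rel T (F.lift u) y‖ * √(gsq (KMS.rel T (F.lift u)) (P y) y))
      (ν.restrict (Skel.cylSet T 0 r')) :=
    (integrableOn_gen hC c1 hK hKG).mono_set hsub
  have hae : ∀ᵐ y ∂(ν.restrict (Skel.cylSet T 0 r')), eden (fb F) u 1 (P y) y ≤
      (1 + n * (1 + n * (1 + m))) * (gsq (KMS.rel T (F.lift u)) (P y) y +
        ‖KMS.rel T (F.lift u) y‖ * √(gsq (KMS.rel T (F.lift u)) (P y) y)) := by
    filter_upwards [ae_restrict_of_ae hC.proj] with y hy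
    obtain ⟨S, hS, hPS⟩ := hy
    rw [hPS, gsq_eq F hu1]
    unfold eden
    have h1 := ew_le (fb F) (d := dm u (xc (fb F) y)) (fun a i => b1 _ a i) S
    have h2 := ew_nonneg (fb F) (dm u (xc (fb F) y)) S.starProjection
    have h3 := sum_abs_va_le F u y
    set e := ew (fb F) (dm u (xc (fb F) y)) S.starProjection
    set V := ∑ c, |va (fb F) u c y|
    set R := ‖KMS.rel T (F.lift u) y‖
    have hs : √e * √e = e := Real.mul_self_sqrt h2
    have hs0 := Real.sqrt_nonneg e
    have hR : 0 ≤ R := norm_nonneg _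
    have h4 : 1 * √e + e ≤ (1 + n * (1 + m)) * √e := by nlinarith
    have h5 : 0 ≤ 1 * √e + e := by positivity
    have h6 : V * (1 * √e + e) ≤ (n * R) * ((1 + n * (1 + m)) * √e) := by
      exact mul_le_mul h3 h4 h5 (by positivity)
    have h7 : (0 : ℝ) ≤ n * (1 + n * (1 + m)) := by positivity
    have h8 : 0 ≤ R * √e := by positivity
    nlinarith
  have hmono : ∫ y in Skel.cylSet T 0 r', eden (fb F) u 1 (P y) y ∂ν ≤
      (1 + n * (1 + n * (1 + m))) * ∫ y in Skel.cylSet T 0 r', (gsq (KMS.rel T (F.lift u)) (P y) y +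
        ‖KMS.rel T (F.lift u) y‖ * √(gsq (KMS.rel T (F.lift u)) (P y) y)) ∂ν := by
    rw [← integral_const_mul]
    refine integral_mono_of_nonneg ?_ (i1.const_mul _) hae
    refine Eventually.of_forall fun y => ?_
    simp only [Pi.zero_apply]
    unfold eden
    have h2 := ew_nonneg (fb F) (dm u (xc (fb F) y)) (P y)
    have h3 : 0 ≤ ∑ c, |va (fb F) u c y| := Finset.sum_nonneg fun _ _ => abs_nonneg _
    positivity
  have hCw := Cw_nonneg m n
  have hM10 : 0 ≤ M1 := hSM.trans hM1'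
  calc M1 * (Cw m n * ∫ y in Skel.cylSet T 0 r', eden (fb F) u 1 (P y) y ∂ν)
      ≤ M1 * (Cw m n * ((1 + n * (1 + n * (1 + m))) * ∫ y in Skel.cylSet T 0 r',
        (gsq (KMS.rel T (F.lift u)) (P y) y +
        ‖KMS.rel T (F.lift u) y‖ * √(gsq (KMS.rel T (F.lift u)) (P y) y)) ∂ν)) := by gcongr
    _ = _ := by
        rw [hM1]
        unfold Cf
        ring

end

end Vale.Agent.P214.AVG
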