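import Vale.Agent.P214.AVG.Coord

/-!
# P214, block AVG: the weak equation for the heights relative to an exact minimal graph

`LLop w ψ c = g^{ij} ∂_i ∂_j ψ_c + 2 g^{kj} ∂_k (ψ_a ∂_i∂_j w_a (Dw g⁻¹)_{c i})` is the adjoint, with
respect to `√g dx`, of the linearisation of `g^{ij} ∂_i ∂_j w_a`.  For a stationary varifold the
vector measure `v dν` of the heights annihilates the image of `LLop` up to quadratic errors.
-/

open Set Filter Topology MeasureTheory Metric
open scoped RealInnerProductSpace ContDiff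

set_option linter.all false

namespace Vale.Agent.P214.AVG

open Vale.Agent.P214.FV
open Vale.Agent.P214.REF (pd bs)

variable {E : Type*} [NormedAddCommGroup E] [InnerProductSpace ℝ E] [FiniteDimensional ℝ E]
variable {m n : ℕ}

noncomputable section

section smooth

variable {k : WithTop ℕ∞} {X : Type*} [NormedAddCommGroup X] [NormedSpace ℝ X]

lemma contDiff_det {p : ℕ} {A : X → Matrix (Fin p) (Fin p) ℝ}
    (h : ∀ i j, ContDiff ℝ k fun x => A x i j) : ContDiff ℝ k fun x => (A x).det := by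
  simp only [Matrix.det_apply]
  refine ContDiff.sum fun σ _ => ?_
  exact (contDiff_prod fun i _ => h _ _).const_smul _

lemma contDiff_adj {p : ℕ} {A : X → Matrix (Fin p) (Fin p) ℝ}
    (h : ∀ i j, ContDiff ℝ k fun x => A x i j) (i j : Fin p) :
    ContDiff ℝ k fun x => (A x).adjugate i j := by
  simp only [Matrix.adjugate_apply]
  refine contDiff_det fun i' j' => ?_
  by_cases hi : i' = j
  · subst hi
    simp only [Matrix.updateRow_self]
    exact contDiff_const
  · simp only [Matrix.updateRow_ne hi]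
    exact h i' j'

lemma contDiff_gmat {D : X → Matrix (Fin n) (Fin m) ℝ}
    (h : ∀ a i, ContDiff ℝ k fun x => D x a i) (i j : Fin m) :
    ContDiff ℝ k fun x => gmat (D x) i j := by
  unfold gmat
  simp only [Matrix.add_apply, Matrix.mul_apply, Matrix.transpose_apply]
  exact contDiff_const.add (ContDiff.sum fun a _ => (h a i).mul (h a j))

lemma contDiff_gi {D : X → Matrix (Fin n) (Fin m) ℝ}
    (h : ∀ a i, ContDiff ℝ k fun x => D x a i) (i j : Fin m) :
    ContDiff ℝ k fun x => gi (D x) i j := by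
  have h1 : (fun x => gi (D x) i j) = fun x => (gmat (D x)).det⁻¹ * (gmat (D x)).adjugate i j := by
    funext x
    unfold gi
    rw [Matrix.inv_def, Matrix.smul_apply, smul_eq_mul, Ring.inverse_eq_inv']
  rw [h1]
  exact ((contDiff_det (contDiff_gmat h)).inv fun x => (gmat_posDef (D x)).det_pos.ne').mul
    (contDiff_adj (contDiff_gmat h) i j)

lemma contDiff_be {D : X → Matrix (Fin n) (Fin m) ℝ}
    (h : ∀ a i, ContDiff ℝ k fun x => D x a i) (a : Fin n) (j : Fin m) :
    ContDiff ℝ k fun x => be (D x) a j := by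
  unfold be
  simp only [Matrix.mul_apply]
  exact ContDiff.sum fun i _ => (h a i).mul (contDiff_gi h i j)

end smooth

lemma contDiff_pd {f : REF.E m → ℝ} {k l : ℕ∞} (hf : ContDiff ℝ k f) (h : l + 1 ≤ k) (i : Fin m) :
    ContDiff ℝ l (pd i f) := by
  have h1 : ContDiff ℝ l (fderiv ℝ f) := hf.fderiv_right (by exact_mod_cast h)
  exact h1.clm_apply contDiff_const

lemma pd_comm {f : REF.E m → ℝ} (hf : ContDiff ℝ 2 f) (i j : Fin m) (x : REF.E m) :
    pd i (pd j f) x = pd j (pd i f) x := by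
  rw [pd_pd hf, pd_pd hf]
  have h1 : IsSymmSndFDerivAt ℝ f x := hf.contDiffAt.isSymmSndFDerivAt (by simp)
  exact h1 _ _

/-- the auxiliary coefficient field -/
def Zc (w ψ : Fin n → REF.E m → ℝ) (c : Fin n) (j : Fin m) (x : REF.E m) : ℝ :=
  ∑ a, ∑ i, ψ a x * pd i (pd j (w a)) x * be (dm w x) c i

/-- the adjoint operator -/
def LLop (w ψ : Fin n → REF.E m → ℝ) (c : Fin n) (x : REF.E m) : ℝ :=
  ∑ i, ∑ j, gi (dm w x) i j * pd i (pd j (ψ c)) x +
    2 * ∑ k, ∑ j, gi (dm w x) k j * pd k (Zc w ψ c j) x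

lemma contDiff_Zc {w ψ : Fin n → REF.E m → ℝ} (hw : ∀ a, ContDiff ℝ 3 (w a))
    (hψ : ∀ a, ContDiff ℝ 1 (ψ a)) (c : Fin n) (j : Fin m) : ContDiff ℝ 1 (Zc w ψ c j) := by
  unfold Zc
  have h1 : ∀ a i, ContDiff ℝ 2 (pd i (w a)) := fun a i =>
    contDiff_pd (k := 3) (l := 2) (hw a) (by norm_num) i
  have h2 : ∀ a i, ContDiff ℝ 1 (pd i (pd j (w a))) := fun a i =>
    contDiff_pd (k := 2) (l := 1) (h1 a j) (by norm_num) i
  have h3 : ∀ a i, ContDiff ℝ 1 fun x => dm w x a i := fun a i => (h1 a i).of_le (by norm_num)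
  exact ContDiff.sum fun a _ => ContDiff.sum fun i _ => ((hψ a).mul (h2 a i)).mul
    (contDiff_be h3 c i)

variable [MeasurableSpace E] [BorelSpace E]
variable {b : OrthonormalBasis (Fin m ⊕ Fin n) ℝ E} {T : Submodule ℝ E} {G : Set E} {h : ℝ}
  {ν : Measure E} {P : E → E →L[ℝ] E}

/-- first order identity for the heights -/
lemma height_first (hC : CylStat m T G h ν P) (hb : Adapted T b) {w : Fin n → REF.E m → ℝ}
    (hw : ∀ a, ContDiff ℝ 1 (w a)) {f : REF.E m → ℝ} (hf : ContDiff ℝ 1 f) {K : Set (REF.E m)}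
    (hK : IsCompact K) (hKG : ∀ x ∈ K, lf b x ∈ G) (h0 : ∀ x, x ∉ K → f x = 0) (c : Fin n)
    (j : Fin m) :
    ∫ y, (f (xc b y) * ⟪nv b (dm w (xc b y)) c, P y (ev b j)⟫ +
      va b w c y * ∑ k, pd k f (xc b y) * ⟪ev b k, P y (ev b j)⟫) ∂ν = 0 := by
  have hφ : ContDiff ℝ 1 (fun y => f (xc b y)) := hf.comp (xc b).contDiff
  have hva : ContDiff ℝ 1 (va b w c) := contDiff_va b hw c
  have hW : ContDiff ℝ 1 (fun y => va b w c y • ev b j) := hva.smul contDiff_const
  rw [← hC.prod hφ hW (hb.baseCpt hK hKG h0)]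
  refine integral_congr_ae (Eventually.of_forall fun y => ?_)
  simp only
  have h1 : fderiv ℝ (fun y => va b w c y • ev b j) y = (fderiv ℝ (va b w c) y).smulRight (ev b j) := by
    have := (hva.differentiable (by norm_num) y).hasFDerivAt.smul_const (ev b j)
    exact this.fderiv
  rw [h1, smulRight_comp, tr_smulRight, ContinuousLinearMap.comp_apply,
    fderiv_va b (fun a => (hw a).differentiable (by norm_num)),
    fderiv_comp_xc (hf.differentiable (by norm_num) _), map_smul]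
  congr 1
  rw [Finset.mul_sum]
  refine Finset.sum_congr rfl fun k _ => ?_
  rw [inner_smul_right]
  ring

/-- second order identity for the heights -/
lemma height_second (hC : CylStat m T G h ν P) (hb : Adapted T b) {w : Fin n → REF.E m → ℝ}
    (hw : ∀ a, ContDiff ℝ 2 (w a)) {f : REF.E m → ℝ} (hf : ContDiff ℝ 2 f) {K : Set (REF.E m)}
    (hK : IsCompact K) (hKG : ∀ x ∈ K, lf b x ∈ G) (h0 : ∀ x, x ∉ K → f x = 0) (c : Fin n) :
    ∫ y, va b w c y * ∑ i, ∑ j, pd i (pd j f) (xc b y) * ⟪ev b i, P y (ev b j)⟫ ∂ν +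
      ∫ y, f (xc b y) * ∑ i, ∑ j, pd i (pd j (w c)) (xc b y) * ⟪ev b i, P y (ev b j)⟫ ∂ν = 0 := by
  have hφ : ContDiff ℝ 2 (fun y => f (xc b y)) := hf.comp (xc b).contDiff
  have h1 := hC.second hφ (contDiff_va b hw c) (hb.baseCpt hK hKG h0)
  have h2 : ∫ y, f (xc b y) * hess (va b w c) (P y) y ∂ν =
      -∫ y, f (xc b y) * ∑ i, ∑ j, pd i (pd j (w c)) (xc b y) * ⟪ev b i, P y (ev b j)⟫ ∂ν := by
    rw [← integral_neg]
    refine integral_congr_ae (Eventually.of_forall fun y => ?_)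
    simp only
    rw [hess_va b hw]
    ring
  have h3 : ∫ y, va b w c y * hess (fun y => f (xc b y)) (P y) y ∂ν =
      ∫ y, va b w c y * ∑ i, ∑ j, pd i (pd j f) (xc b y) * ⟪ev b i, P y (ev b j)⟫ ∂ν := by
    refine integral_congr_ae (Eventually.of_forall fun y => ?_)
    simp only
    rw [hess_comp_xc hf]
  rw [h2, h3] at h1
  linarith

end

end Vale.Agent.P214.AVG
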